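import Vale.Agent.P014Y.F.Defs
import Vale.Agent.P014Y.F.Sys
import Vale.Agent.P014Y.F.En.Noi
import Vale.Agent.P014U.X4F.Pa.Ps
import Vale.Agent.P014U.X4F.Pat.Vec
import Vale.Agent.P004F.Ra.Lv
import Vale.Agent.P004F.Pt.Dh
import Vale.Agent.P004F.Pa.Sep0

/-! # P014Y, block F: powers of principal units, basic facts on the data -/

set_option linter.all false

open NumberField Matrix PowerSeries
open scoped Classical

noncomputable section

namespace Vale.Agent.P014Y.F.Pa.B0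

open Vale.Agent.P022 Vale.Agent.P004K Vale.Agent.P014U
open Vale.Agent.P027M.S (Inert)
open Vale.Agent.P022D.W (dec inP_le_dec phi_mem)
open Vale.Agent.P022E.GW (Ov Fb)
open X4F.Pat (Im rs rs_unit rs_zero)
open X4F.Pa (two_Im1)

export P004F.Ra (unr_hc)

variable [Pp]

theorem rs_p : rs (pp : La) = 0 := rs_zero.2 two_Im1

/-- `(1 + p w) ^ k - 1` is `p ^ (v + 1) w` times a unit -/
theorem pw_dvd (w : La) (m : ℕ) : ∀ k, ¬ pp ^ m ∣ k → (1 + pp * w : La) ^ k - 1 ∣ pp ^ m * w := by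
  have g : ∀ k, (1 + pp * w : La) ^ k - 1 = pp * w * ∑ i ∈ Finset.range k, (1 + pp * w) ^ i :=
    fun k => by rw [← mul_geom_sum, add_sub_cancel_left]
  induction m with
  | zero => exact fun k h => absurd (by simp) h
  | succ m ih =>
    intro k h
    by_cases d : pp ∣ k
    · obtain ⟨k, rfl⟩ := d
      obtain ⟨s, hs⟩ : ∃ s, (1 + pp * w : La) ^ k = 1 + pp * s :=
        ⟨_, by rw [← mul_assoc, ← g k, add_sub_cancel]⟩
      obtain ⟨t, ht⟩ := odd_sq_dvd_geom_sum₂_sub (1 : La) s pp_odd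
      simp only [one_pow, mul_one, ← hs] at ht
      have u : IsUnit (1 + pp * t : La) := rs_unit.2 (by simp [rs_p])
      rw [mul_comm pp k, pow_mul, ← mul_geom_sum, show (pp : La) ^ (m + 1) * w = pp ^ m * w * pp by ring]
      refine mul_dvd_mul (ih k fun d => h (pow_succ' pp m ▸ mul_dvd_mul_left pp d)) ?_
      rw [sub_eq_iff_eq_add.1 ht, show (pp : La) ^ 2 * t + pp = pp * (1 + pp * t) by ring,
        u.mul_right_dvd]
    · have u : IsUnit (∑ i ∈ Finset.range k, (1 + pp * w : La) ^ i) := rs_unit.2 (by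
        simpa [rs_p, ZMod.natCast_eq_zero_iff] using d)
      rw [g, u.mul_right_dvd]
      exact mul_dvd_mul_right (dvd_pow_self _ m.succ_ne_zero) w

theorem two_Rj (j : ℕ) : (pp : Rj j) ^ j = 0 := by
  have := Ideal.Quotient.eq_zero_iff_mem.2 (X4F.Pat.two_Im j)
  rwa [map_pow, map_natCast] at this

theorem cj_dvd {j : ℕ} {x : ℤ_[pp]} (h : (pp : ℤ_[pp]) ^ j ∣ x) : cj j x = 0 := by
  obtain ⟨y, rfl⟩ := h
  rw [map_mul, map_pow, map_natCast, two_Rj, zero_mul]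

variable {e : Crv} {l : ℕ} {P : Ideal (𝓞 Qb)} {g φ : GQ}

theorem r_inert (o : Ov l P) (h : l ∉ e.S) (i : Inert P g) : e.r g = 1 := by
  have r : X4S.Rep e.rp e.S.toFinset := X4F.En.rep_ok _ (List.mem_toFinset.2 e.pm) fun l hl h d => by
    rw [List.mem_toFinset] at h
    have p := Nat.prime_iff_prime_int.1 hl
    refine (p.dvd_or_dvd d).elim (fun k => h ((p.dvd_or_dvd k).elim (fun k => ?_) fun k => ?_))
      (e.bad l hl h).2.1
    · rw [(Nat.prime_dvd_prime_iff_eq hl Nat.prime_two).1 (by exact_mod_cast k)]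
      exact e.two
    · rw [(Nat.prime_dvd_prime_iff_eq hl pp_prime).1 (by exact_mod_cast k)]
      exact e.pm
  exact Matrix.ext fun a a' => Subtype.ext ((congrFun₂ (r.mt_inert o (mt List.mem_toFinset.1 h) i)
    a a').trans (by simp only [one_apply]; split_ifs <;> rfl))

theorem fix0 (e : Crv) (o : Ov l P) (f : Fb l P φ) {v : Fin 2 → ℤ_[pp]} (hφ : e.r φ *ᵥ v = v)
    (hI : ∀ g, Inert P g → e.r g *ᵥ v = v) : v = 0 := En.fix0 _ o f hφ hI

theorem det_in (e : Crv) (o : Ov l P) (h : l ≠ pp) (i : Inert P g) : (e.r g).det = 1 :=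
  En.det_inert _ o h i

theorem det_fb (e : Crv) (o : Ov l P) (h : l ≠ pp) (f : Fb l P φ) : (e.r φ).det = l :=
  En.det_fb _ o h f

theorem c_sq (b : Fld e) : b.c * b.c = 1 := P004F.Pt.cj_sq b.cc

theorem c_inv (b : Fld e) : b.c⁻¹ = b.c := P004F.Pt.cj_inv b.cc

theorem c_out (b : Fld e) : b.c ∉ b.Γ := P004F.Ra.conj_out b.iq b.cc

theorem Γ_conj (b : Fld e) (h : g ∈ b.Γ) (t : GQ) : t * g * t⁻¹ ∈ b.Γ :=
  (Subgroup.normal_of_index_eq_two (P004F.Ra.gk_idx b.iq b.cc)).conj_mem g h t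

theorem cj_mem {b : Fld e} (h : g ∈ b.Γ) : b.c * g * b.c ∈ b.Γ := by
  simpa only [c_inv] using Γ_conj b h b.c

theorem rr (b : Fld e) : e.r b.c * e.r b.c = 1 := by rw [← map_mul, c_sq, map_one]

theorem dh {b : Fld e} {n c : ℕ} {χ : GQ → ℕ} (a : b.Ad n c χ) :
    P004F.Pt.Dh b.j c fun g => (χ g : ZMod (pp ^ n)) :=
  ⟨fun g hg k hk => by
    rw [← Nat.cast_add, ZMod.natCast_eq_natCast_iff]
    exact a.add g hg k hk, fun g hg => (ZMod.natCast_eq_zero_iff _ _).2 (a.ker g hg)⟩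

theorem σS (p : e.σ) : (p : ℕ) ∈ e.S := List.mem_toFinset.1 (Finset.mem_filter.1 p.2).1

theorem σ2 (p : e.σ) : (p : ℕ) ≠ pp := (Finset.mem_filter.1 p.2).2.1

theorem σo (p : e.σ) : Ov p (e.P p) := e.ov p (σS p)

theorem σf (b : Fld e) (p : e.σ) : Fb p (e.P p) (b.φ p) := b.ch.frb p (σS p)

theorem στ (p : e.σ) : Inert (e.P p) (e.τ p) := (e.gn p (σS p) (σ2 p)).1

theorem σnd (p : e.σ) : ¬ pp ∣ (p : ℕ) := fun d =>
  σ2 p ((Nat.prime_dvd_prime_iff_eq pp_prime (σo p).1).1 d).symm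

theorem φ_mem (b : Fld e) (p : e.σ) : b.φ p ∈ b.Γ := b.ch.mem p (σS p)

theorem τ_mem (b : Fld e) (p : e.σ) : e.τ p ∈ b.Γ := b.le p (σS p) (inP_le_dec (στ p))

end Vale.Agent.P014Y.F.Pa.B0
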