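import Vale.Agent.P014U.X4F.Pa.Ps
import Vale.Agent.P004F.Pa.Lex

/-! # P014Y, block PAT: powers, reduction modulo `p`, limits of vectors (helper45) -/

set_option linter.all false

open Matrix Filter PowerSeries Submodule Set
open scoped Classical

noncomputable section

namespace Vale.Agent.P014Y.F.Pa

open Vale.Agent.P014U Vale.Agent.P014U.X4F
open Vale.Agent.P014U.X4F.Pa (ur um two_Im1 X_Im1 twoX_Im1 mj_pow mj_mod geom_mem)
open Pat (U Sy Im)

variable [Pp]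

namespace Nm

/-- reduction modulo `p` -/
abbrev m2 : La →+* PowerSeries (ZMod pp) := PowerSeries.map PadicInt.toZMod

theorem z2 : PadicInt.toZMod (pp : ℤ_[pp]) = 0 := by
  rw [map_natCast, ZMod.natCast_self]

theorem m2_two : m2 (pp : La) = 0 := by
  rw [show (pp : La) = C (pp : ℤ_[pp]) from (map_natCast C pp).symm, map_C, z2, map_zero]

theorem mem_two {k : ℕ} {f : La} (h : X ^ k ∣ m2 f) :
    f ∈ Ideal.span {(pp : La), (X : La) ^ k} := by
  have a : ∀ i < k, (pp : ℤ_[pp]) ∣ coeff i f := fun i hi => by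
    have := X_pow_dvd_iff.1 h i hi
    rwa [coeff_map, ← RingHom.mem_ker, PadicInt.ker_toZMod, PadicInt.maximalIdeal_eq_span_p,
      Ideal.mem_span_singleton] at this
  choose c hc using a
  obtain ⟨b, hb⟩ : X ^ k ∣ f - (PowerSeries.mk fun i => if h : i < k then c i h else 0) *
      C (pp : ℤ_[pp]) :=
    X_pow_dvd_iff.2 fun i hi => by
      rw [map_sub, coeff_mul_C, coeff_mk, dif_pos hi, hc i hi, mul_comm, sub_self]
  rw [map_natCast] at hb
  exact Ideal.mem_span_pair.2 ⟨_, b, (congrArg _ (mul_comm b _)).trans (sub_eq_iff_eq_add'.1 hb).symm⟩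

/-- reduction modulo `p` and `T ^ J` -/
def rb (J : ℕ) : La →+* Rb J := (Ideal.Quotient.mk _).comp m2

theorem rb_p (J : ℕ) : (pp : Rb J) = 0 := by
  rw [← map_natCast (rb J), rb, RingHom.comp_apply, m2_two, map_zero]

theorem rb_Im {J k : ℕ} (h0 : k ≠ 0) (h : J ≤ k) {f : La} (hf : f ∈ Im k) : rb J f = 0 := by
  obtain ⟨a, b, rfl⟩ := Ideal.mem_span_pair.1 hf
  have : rb J (X ^ k) = 0 := Ideal.Quotient.eq_zero_iff_mem.2 (Ideal.mem_span_singleton.2 (by
    rw [map_pow, map_X]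
    exact pow_dvd_pow _ h))
  rw [map_add, map_mul, map_mul, this, map_pow, map_natCast, rb_p, zero_pow h0]
  simp

/-- the same on a finite quotient -/
def rq {J j : ℕ} (h : J ≤ j + 1) : Rj (j + 1) →+* Rb J :=
  Ideal.Quotient.lift _ (rb J) fun _ => rb_Im j.succ_ne_zero h

end Nm

namespace Et

theorem p_unit {f : La} {o : ℕ} (h : ¬ pp ∣ o) (e : Pat.rs f = o) : IsUnit f := by
  rwa [Pat.rs_unit, e, Ne, ZMod.natCast_eq_zero_iff]

theorem two_pow (a : ℕ) :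
    ∃ w : La, IsUnit w ∧ (1 + (pp : La) * X) ^ pp ^ a = 1 + (pp : La) ^ (a + 1) * X * w := by
  induction a with
  | zero => exact ⟨1, isUnit_one, by simp⟩
  | succ a k =>
    obtain ⟨w, u, e⟩ := k
    obtain ⟨c, hc⟩ := Ideal.mem_span_singleton'.1 (geom_mem
      (I := Ideal.span {(pp : La) ^ (a + 1) * X * w}) (x := 1 + (pp : La) ^ (a + 1) * X * w)
      (by simpa using Ideal.mem_span_singleton_self _) pp)
    refine ⟨w * (1 + (pp : La) ^ a * X * w * c), u.mul (p_unit (o := 1) (Nat.Prime.not_dvd_one pp_prime)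
      (by simp [Pat.rs])), ?_⟩
    have := mul_geom_sum (1 + (pp : La) ^ (a + 1) * X * w) pp
    rw [pow_succ pp a, pow_mul, e]
    linear_combination -this - ((pp : La) ^ (a + 1) * X * w) * hc

theorem dvd_two {m n : ℕ} (h : ¬ pp ^ m ∣ n) :
    (1 + (pp : La) * X) ^ n - 1 ∣ (pp : La) ^ m * X := by
  obtain ⟨a, o, ho, rfl⟩ := Nat.exists_eq_pow_mul_and_not_dvd (n := n)
    (fun k => h (k ▸ dvd_zero _)) pp one_lt.ne'
  obtain ⟨w, u, e⟩ := two_pow a
  have l : a + 1 ≤ m := by_contra fun k => h ((pow_dvd_pow pp (by omega)).mul_right o)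
  rw [pow_mul, ← geom_sum_mul, e, add_sub_cancel_left,
    (p_unit ho (by simp [map_sum, Pat.rs])).mul_left_dvd, u.mul_right_dvd]
  exact mul_dvd_mul_right (pow_dvd_pow _ l) X

variable {π : La}

/-- sequences which are not divisible by `π` -/
def Ex (π : La) (G : ∀ j, Rj (j + 1) → Prop) : Prop :=
  ∃ η : ∀ j, Rj (j + 1), ¬ π ∣ ur η ∧ ∀ᶠ j in U, G j (η j)

theorem Ex.mono {G G' : ∀ j, Rj (j + 1) → Prop} (h : Ex π G) (k : ∀ᶠ j in U, ∀ η, G j η → G' j η) :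
    Ex π G' :=
  let ⟨η, a, c⟩ := h
  ⟨η, a, (c.and k).mono fun j x => x.2 _ x.1⟩

theorem Ex.and (hπ : Prime π) {G G' : ∀ j, Rj (j + 1) → Prop} (h : Ex π G) (h' : Ex π G')
    (k : ∀ j η a, G j η → G j (a * η)) (k' : ∀ j η a, G' j η → G' j (a * η)) :
    Ex π fun j η => G j η ∧ G' j η :=
  let ⟨η, a, c⟩ := h
  let ⟨η', a', c'⟩ := h'
  ⟨η * η', fun d => (hπ.dvd_or_dvd (map_mul ur η η' ▸ d)).elim a a', (c.and c').mono fun j x =>
    ⟨by rw [Pi.mul_apply, mul_comm]; exact k j _ _ x.1, k' j _ _ x.2⟩⟩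

theorem ex_fin (hπ : Prime π) {G : ∀ j, ℕ → Rj (j + 1) → Prop}
    (k : ∀ j l η a, G j l η → G j l (a * η)) (n : ℕ) : ∀ F : ℕ → Finset ℕ,
    (∀ᶠ j in U, (F j).card ≤ n) → (∀ l : ℕ → ℕ, (∀ᶠ j in U, l j ∈ F j) → Ex π fun j => G j (l j)) →
    Ex π fun j η => ∀ l ∈ F j, G j l η := by
  have z : ∀ F : ℕ → Finset ℕ, (∀ᶠ j in U, F j = ∅) → Ex π fun j η => ∀ l ∈ F j, G j l η :=
    fun F h => ⟨1, by rw [map_one]; exact hπ.not_dvd_one, h.mono fun j x l hl => by simp [x] at hl⟩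
  induction n with
  | zero => exact fun F h _ => z F (h.mono fun j x => Finset.card_eq_zero.1 (Nat.le_zero.1 x))
  | succ n ih =>
    intro F h H
    rcases U.em fun j => F j = ∅ with a | a
    · exact z F a
    have : ∀ j, ∃ l, F j ≠ ∅ → l ∈ F j := fun j => by
      by_cases x : F j = ∅
      · exact ⟨0, fun y => absurd x y⟩
      · exact (Finset.nonempty_iff_ne_empty.2 x).imp fun l y _ => y
    choose l hl using this
    have a := a.mono hl
    refine ((H l a).and hπ (ih (fun j => (F j).erase (l j)) ((h.and a).mono fun j x => by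
      rw [Finset.card_erase_of_mem x.2]; omega) fun l' y => H l' (y.mono fun j =>
        Finset.mem_of_mem_erase)) (fun j => k j _) fun j η a y l' x => k j _ _ _ (y l' x)).mono
      (.of_forall fun j η y l' x => ?_)
    by_cases i : l' = l j
    · exact i ▸ y.1
    · exact y.2 l' (Finset.mem_erase.2 ⟨i, x⟩)

theorem ur_two (n : ℕ) : ur (fun j => (pp : Rj (j + 1)) ^ n) = pp ^ n :=
  (map_pow ur (pp : ∀ j, Rj (j + 1)) n).trans (by rw [map_natCast])

/-- a unit at `π` plus a multiple of `x` -/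
theorem ex_add (hπ : Prime π) (h2 : ¬ π ∣ (pp : La)) {G : ∀ j, Rj (j + 1) → Prop} {x : ∀ j, Rj (j + 1)}
    (hx : π ∣ ur x) (n : ℕ) (h : ∀ᶠ j in U, ∃ v ∈ Ideal.span {x j}, G j (pp ^ n + v)) : Ex π G := by
  have : ∀ j, ∃ a, (∃ v ∈ Ideal.span {x j}, G j (pp ^ n + v)) → G j (pp ^ n + a * x j) := fun j => by
    by_cases y : ∃ v ∈ Ideal.span {x j}, G j (pp ^ n + v)
    · obtain ⟨v, y, z⟩ := y
      obtain ⟨a, rfl⟩ := Ideal.mem_span_singleton'.1 y
      exact ⟨a, fun _ => z⟩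
    · exact ⟨0, fun z => absurd z y⟩
  choose a ha using this
  refine ⟨(fun j => (pp : Rj (j + 1)) ^ n) + a * x, fun d => h2 (hπ.dvd_of_dvd_pow (n := n) ?_), h.mono ha⟩
  rw [map_add, map_mul, ur_two] at d
  exact (dvd_add_left (hx.mul_left _)).1 d

theorem ex_sq (hπ : Prime π) {G : ∀ j, Rj (j + 1) → Prop} {x : ∀ j, Rj (j + 1)}
    (hx : ¬ π ∣ ur x) (h : ∀ᶠ j in U, G j (x j ^ 2)) : Ex π G :=
  ⟨x ^ 2, fun d => hx (hπ.dvd_of_dvd_pow (map_pow ur x 2 ▸ d)), h⟩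

end Et

namespace Lx

export Vale.Agent.P004F.Pa.Lx (mem_sp dot_zero sp_rows vm_mem ker_iff)

variable {I ρ : Type}

/-- the limit of vectors -/
def lv (v : ∀ j, I → Rj (j + 1)) : I → La := fun i => ur fun j => v j i

theorem lv_ae {v v' : ∀ j, I → Rj (j + 1)} (h : ∀ᶠ j in U, v j = v' j) : lv v = lv v' :=
  funext fun i => Sy.succ.ur_ae (h.mono fun j e => by rw [e])

theorem lv_sub (v v' : ∀ j, I → Rj (j + 1)) : lv (fun j => v j - v' j) = lv v - lv v' :=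
  funext fun i => ur.map_sub _ _

theorem lv_vecMul [Fintype ρ] (v : ∀ j, ρ → Rj (j + 1)) (A : ∀ j, Matrix ρ I (Rj (j + 1))) :
    lv (fun j => v j ᵥ* A j) = lv v ᵥ* um A :=
  congrFun (Sy.succ.um_mul (fun j => Matrix.of fun _ : Unit => v j) A) ()

theorem lv_mulVec [Fintype I] (A : ∀ j, Matrix ρ I (Rj (j + 1))) (v : ∀ j, I → Rj (j + 1)) :
    lv (fun j => A j *ᵥ v j) = um A *ᵥ lv v :=
  funext fun i => congrFun (congrFun
    (Sy.succ.um_mul A (fun j => Matrix.of fun a (_ : Unit) => v j a)) i) ()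

/-- membership in the span of the rows passes to the limit -/
theorem lv_mem [Fintype ρ] {v : ∀ j, I → Rj (j + 1)} {M : ∀ j, Matrix ρ I (Rj (j + 1))}
    (h : ∀ᶠ j in U, v j ∈ span (Rj (j + 1)) (range (M j))) : lv v ∈ span La (range (um M)) := by
  refine mem_sp.2 ⟨lv fun j => if e : ∃ β, v j = β ᵥ* M j then e.choose else 0, ?_⟩
  rw [← lv_vecMul]
  exact lv_ae (h.mono fun j e => by rw [dif_pos (mem_sp.1 e)]; exact (mem_sp.1 e).choose_spec)

theorem ker_lim {I I' ρ ρ' : Type} [Fintype I] [Fintype I'] [Fintype ρ] [Fintype ρ']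
    {M : ∀ j, Matrix ρ I (Rj (j + 1))} {M' : ∀ j, Matrix ρ' I' (Rj (j + 1))}
    {A : ∀ j, Matrix I' I (Rj (j + 1))} {A' : ∀ j, Matrix I I' (Rj (j + 1))}
    (h : ∀ᶠ j in U, (∀ v ∈ span (Rj (j + 1)) (range (M' j)),
      v ᵥ* A j ∈ span (Rj (j + 1)) (range (M j))) ∧
      (∀ v ∈ span (Rj (j + 1)) (range (M j)), v ᵥ* A' j ∈ span (Rj (j + 1)) (range (M' j))) ∧
      ∀ v, v ᵥ* A j ᵥ* A' j - v ∈ span (Rj (j + 1)) (range (M' j))) (v : I' → La) :
    v ᵥ* um A ∈ span La (range (um M)) ↔ v ∈ span La (range (um M')) := by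
  refine ker_iff (A' := um A') (fun i => ?_) (fun i => ?_) (fun i => ?_) v
  · rw [← Sy.um_mul]
    exact lv_mem (h.mono fun j a => a.1 _ (subset_span ⟨i, rfl⟩))
  · rw [← Sy.um_mul]
    exact lv_mem (h.mono fun j a => a.2.1 _ (subset_span ⟨i, rfl⟩))
  · rw [← Sy.um_mul, ← Sy.succ.um_one, ← Sy.um_sub]
    exact lv_mem (h.mono fun j a => by
      have := a.2.2 ((1 : Matrix I' I' _) i)
      rwa [vecMul_vecMul, show (1 : Matrix I' I' _) i ᵥ* (A j * A' j) =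
        (1 * (A j * A' j) : Matrix I' I' _) i from rfl, Matrix.one_mul] at this)

end Lx

namespace Tv

theorem cong {R : Type} [CommRing R] {𝔟 : Ideal R} {u t s : R} {Q m : ℕ} {B : Matrix (Fin 2) (Fin 2) R}
    (hu : u - 1 ∈ 𝔟) (ht : t - 1 ∈ 𝔟) (hQ : (Q : R) = 1) (k : (B - 1).det * s = pp ^ m) :
    s ^ 3 * ((u • B - 1).det ^ 2 * (u • B - (∑ i ∈ Finset.range Q, t ^ i) • 1).det) -
      pp ^ (3 * m) ∈ 𝔟 := by
  have a := Ideal.Quotient.eq.2 hu
  have b := Ideal.Quotient.eq.2 ht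
  have c : (Q : R ⧸ 𝔟) = 1 := by rw [← map_natCast (Ideal.Quotient.mk 𝔟), hQ, map_one]
  refine Ideal.Quotient.eq.1 ?_
  rw [pow_mul', ← k]
  simp [det_fin_two, a, b, c]
  ring

theorem two_pow (j : ℕ) : (pp : Rj j) ^ j = 0 := by
  have : mj j (pp ^ j) = 0 := Ideal.Quotient.eq_zero_iff_mem.2 (Ideal.subset_span (by simp))
  rwa [map_pow, map_natCast] at this

end Tv

end Vale.Agent.P014Y.F.Pa
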