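import Vale.Agent.P014Y.F.Pa.St
import Vale.Agent.P014Y.F.Pa.Pw
import Vale.Agent.P014Y.F.Pa.P0
import Vale.Agent.P014Y.F.Pt.Kd

/-! # P014Y, block F, PAT: the factor in the reciprocity law (port of P004F; helper33) -/

set_option linter.all false

open NumberField Matrix Filter PowerSeries
open scoped Classical Pointwise

noncomputable section

namespace Vale.Agent.P014Y.F.Pa

open Vale.Agent.P022 Vale.Agent.P004K Vale.Agent.P014U
open Vale.Agent.P027M.S (Inert)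
open Vale.Agent.P022D.W (dec)
open Vale.Agent.P022E.GW (Ov)
open P004F.Pr (ac)
open X4F.Pat (U Sy Im)
open X4F.Pa (X_Im1 two_Im1 mj_pow mj_mod)

variable [Pp]

namespace Et

theorem ps_l [Om] {j : ℕ} {χ χ' : GQ → ℕ} {g : GQ} (h : pp ^ (2 * j) ∣ χ' g) :
    ps j χ χ' g = mj j ((1 + X) ^ χ g) := by
  rw [ps, map_mul, mj_pow ((Im 1).mul_mem_right om two_Im1) h, mul_one]

theorem ps_r [Om] {j : ℕ} {χ χ' : GQ → ℕ} {g : GQ} (h : pp ^ (2 * j) ∣ χ g) :
    ps j χ χ' g = mj j ((1 + (pp : La) * om) ^ χ' g) := by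
  rw [ps, map_mul, mj_pow X_Im1 h, one_mul]

variable {e : Crv} {b : Fld e}

theorem vn_mul {j : ℕ} {Ψ : GQ → Rj j} {η : Rj j} {P : Ideal (𝓞 Qb)} (h : Vn b Ψ η P) (a : Rj j) :
    Vn b Ψ (a * η) P := fun M _ _ T x hx =>
  let ⟨m, k⟩ := h M T x hx
  ⟨a • m, fun g hg => by rw [← smul_smul, k g hg, P004F.Pr.ac_smul]⟩

theorem gp_mono {m n n' q : ℕ} (h : b.Gp m n q) (l : n' ≤ n) : b.Gp m n' q :=
  let ⟨k, a, c⟩ := h.typ
  ⟨h.out, h.cop, ⟨k, a, (pow_dvd_pow pp l).trans c⟩, h.gq⟩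

variable [Om] {π : La}

variable (s : Sq b)

theorem mem_C {j l : ℕ} (h : l ∈ (s.C j).primeFactors) (k : (s.q j).Prime) :
    l ∈ (s.c j).primeFactors ∨ l = s.q j := by
  obtain ⟨a, c, d⟩ := Nat.mem_primeFactors.1 h
  exact (a.dvd_mul.1 c).imp (fun x => Nat.mem_primeFactors.2 ⟨a, x, left_ne_zero_of_mul d⟩)
    (Nat.prime_dvd_prime_iff_eq a k).1

/-- one sequence of places -/
theorem one (r2 : RC2) (hT : TWV) (hπ : Prime π) (h2 : ¬ π ∣ (pp : La)) (hX : ¬ π ∣ om) (l : ℕ → ℕ)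
    (P : ℕ → Ideal (𝓞 Qb))
    (h : ∀ᶠ j in U, l j ∈ (s.C j).primeFactors ∧ Ov (l j) (P j)) :
    Ex π fun j η => Vn b (s.Ψ j) η (P j) := by
  obtain ⟨c₀, hT⟩ := hT e b s.m
  have gp : ∀ᶠ j in U, b.Gp s.m (2 * (j + 1)) (l j) := ((h.and s.tw).and s.pe).mono
    fun j ⟨⟨x, y⟩, z⟩ => (mem_C s x.1 z.xq.choose_spec.2.pr).elim (y.gp _) fun k => k ▸ z.gp
  have H := ((h.and gp).and s.chr).mono fun j ⟨⟨x, y⟩, z⟩ =>
    hT _ _ _ _ _ z (gp_mono y (by omega)) x.2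
  have : ∀ j, ∃ g, (l j ∈ (s.C j).primeFactors ∧ Ov (l j) (P j)) ∧
      b.Tw s.m (2 * (j + 1)) (s.c j) (s.χ j) ∧
      b.Pe s.m s.k s.y (2 * (j + 1)) (s.c j) (s.χ j) (s.q j) (s.χ' j) → Inert (P j) g ∧
      ((∀ h ∈ b.Γ ⊓ dec (P j), s.Ψ j h - 1 ∈ Ideal.span {s.Ψ j g - 1}) ∨
        s.Ψ j g - 1 ∣ (pp : Rj (j + 1)) ^ s.m * mj (j + 1) om) := fun j => by
    by_cases y : (l j ∈ (s.C j).primeFactors ∧ Ov (l j) (P j)) ∧
      b.Tw s.m (2 * (j + 1)) (s.c j) (s.χ j) ∧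
      b.Pe s.m s.k s.y (2 * (j + 1)) (s.c j) (s.χ j) (s.q j) (s.χ' j)
    swap
    · exact ⟨1, fun z => absurd z y⟩
    obtain ⟨⟨x, o⟩, y, z⟩ := y
    obtain ⟨v, -, w⟩ := z.xq
    rcases mem_C s x w.pr with k | k
    · obtain ⟨g, g1, -, g2⟩ := y.ram _ k _ o
      have g3 : g ∈ b.Γ ⊓ dec (P j) :=
        ⟨b.inert_mem o (e.ne_two (y.gp _ k).out) (y.gp _ k).cop g1, P004S.inert_dec g1⟩
      refine ⟨g, fun _ => ⟨g1, .inl fun h hh => ?_⟩⟩
      obtain ⟨n, hn⟩ := g2 h hh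
      rw [Sq.Ψ, ps_l (z.tw _ k _ o h hh), ps_l (z.tw _ k _ o g g3), mj_mod X_Im1 hn,
        pow_mul', map_pow _ _ n]
      exact Ideal.mem_span_singleton.2 (sub_one_dvd_pow_sub_one _ n)
    · rw [k] at o
      obtain ⟨g, g1, g2⟩ := z.ram _ o
      refine ⟨g, fun _ => ⟨g1, .inr ?_⟩⟩
      have g3 := y.ker g (P004R.Wr.inert_hc r2 b.iq o (fun d => w.out (Finset.mem_union_right _
        (Nat.mem_primeFactors.2 ⟨w.pr, d, y.sq.ne_zero⟩)))
        (b.inert_mem o (e.ne_two z.gp.out) w.cop g1) g1)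
      rw [Sq.Ψ, ps_r g3]
      simpa only [map_sub, map_one, map_mul, map_pow (mj (j + 1)) (pp : La), map_natCast] using
        map_dvd (mj (j + 1)) (B0.pw_dvd om _ _ g2)
  choose g hg using this
  have hg := (h.and (s.tw.and s.pe)).mono hg
  by_cases d : π ∣ ur fun j => s.Ψ j (g j) - 1
  swap
  · exact ex_sq hπ d ((H.and hg).mono fun j x => x.1.1 _ x.2.1)
  rcases U.eventually_or.1 (hg.mono fun j x => x.2) with a | a
  · exact ex_add hπ h2 d c₀ ((H.and a).mono fun j x => x.1.2 _ x.2)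
  · have : ∀ j, ∃ y, s.Ψ j (g j) - 1 ∣ (pp : Rj (j + 1)) ^ s.m * mj (j + 1) om →
        (pp : Rj (j + 1)) ^ s.m * mj (j + 1) om = (s.Ψ j (g j) - 1) * y := fun j => by
      by_cases y : s.Ψ j (g j) - 1 ∣ (pp : Rj (j + 1)) ^ s.m * mj (j + 1) om
      · exact y.imp fun y z _ => z
      · exact ⟨0, fun z => absurd z y⟩
    choose y hy using this
    have k : ur ((fun j => (pp : Rj (j + 1)) ^ s.m) * fun j => mj (j + 1) om) =
      ur ((fun j => s.Ψ j (g j) - 1) * y) := Sy.succ.ur_ae (a.mono hy)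
    rw [map_mul, map_mul, ur_two, Sy.succ.ur_const] at k
    exact ((hπ.dvd_or_dvd (k ▸ d.mul_right _)).elim (fun i => h2 (hπ.dvd_of_dvd_pow i)) hX).elim

end Et

open Et

/-- **row ETA** -/
theorem eta [Om] (r2 : RC2) (hV : VAN) (hT : TWV) : ETA := fun e b s π hπ h2 hX => by
  obtain ⟨c₀, hV⟩ := hV e b
  let G : ∀ j, ℕ → Rj (j + 1) → Prop := fun j l η =>
    ∀ P, Ov l P → ∃ g ∈ b.Γ, Vn b (s.Ψ j) η (g • P)
  have k : ∀ j l η a, G j l η → G j l (a * η) := fun j l η a h P o =>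
    (h P o).imp fun g x => ⟨x.1, vn_mul x.2 a⟩
  have h1 : Ex π fun j η => ∀ l ∈ e.S, l ≠ pp → l ∉ e.σ → G j l η :=
    ⟨fun j => (pp : Rj (j + 1)) ^ c₀, fun d => h2 (hπ.dvd_of_dvd_pow (ur_two c₀ ▸ d)), s.chr.mono
      fun j h l a a' a'' P o => ⟨1, one_mem _, fun M _ _ T x hx =>
        (hV l a a' a'' _ _ _ h M T x hx P o).imp fun m y g hg => by
          rw [← y g (by simpa using hg.2), ← Nat.cast_smul_eq_nsmul (Rj (j + 1))]
          simp⟩⟩
  have h3 : Ex π fun j η => ∀ l ∈ (s.C j).primeFactors, G j l η := by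
    refine ex_fin hπ k (s.m + 1) _ ((s.tw.and s.pe).mono fun j x => ?_) fun l hl => ?_
    · refine (Finset.card_le_card (t := insert (s.q j) (s.c j).primeFactors) fun l hl => ?_).trans
        ((Finset.card_insert_le _ _).trans (Nat.succ_le_succ x.1.crd))
      exact Finset.mem_insert.2 (mem_C s hl x.2.xq.choose_spec.2.pr).symm
    · have : ∀ l : ℕ, ∃ P, l.Prime → Ov l P := fun l => by
        by_cases y : l.Prime
        · exact (P004R.Cb.ex_ov y).imp fun P z _ => z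
        · exact ⟨⊤, fun z => absurd z y⟩
      choose P hP using this
      have o := hl.mono fun j x => hP _ (Nat.prime_of_mem_primeFactors x)
      refine ((one s r2 hT hπ h2 hX l (fun j => P (l j)) (hl.and o)).and hπ
        (one s r2 hT hπ h2 hX l (fun j => b.c • P (l j)) (hl.and (o.mono fun j x =>
          P022K.GW.ov_smul x _))) (fun j η a x => vn_mul x a) fun j η a x => vn_mul x a).mono
        (o.mono fun j x η y Q oq => ?_)
      obtain ⟨t, i⟩ := P022E.GW.Tg.trans oq x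
      by_cases m : t ∈ b.Γ
      · exact ⟨t, m, i ▸ y.1⟩
      · exact ⟨b.c * t, b.mul_out b.c_out m, by rw [← smul_smul, ← i]; exact y.2⟩
  exact (h1.and hπ h3 (fun j η a x l i i' i'' => k j l η a (x l i i' i''))
    fun j η a x l i => k j l η a (x l i)).mono (.of_forall fun j η x l hl a a' =>
      (Finset.mem_union.1 hl).elim (fun i => x.1 l (List.mem_toFinset.1 i) a a') (x.2 l))

end Vale.Agent.P014Y.F.Pa
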