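import Vale.Agent.P014Y.F.St
import Vale.Agent.P014U.X4F.Pa.Ps

/-! # P014Y, block F, PAT: level packages, sequences, limits -/

set_option linter.all false

open NumberField Matrix Filter PowerSeries Submodule Set
open scoped Classical Pointwise

noncomputable section

namespace Vale.Agent.P014Y.F.Pa

open Vale.Agent.P022 Vale.Agent.P004K Vale.Agent.P014U
open Vale.Agent.P027M.S (Inert)
open Vale.Agent.P022D.W (dec)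
open Vale.Agent.P022E.GW (Ov Fb)
open P004F.Pr (ac)
open X4F.Pat (U Sy)

export Vale.Agent.P014U.X4F.Pa (ur um)

/-- the direction of the perturbation (`X` or `1`) -/
class Om [Pp] where
  om : La

export Om (om)

variable [Pp] {e : Crv} (b : Fld e)

/-! ### one level -/

section level

variable {j : ℕ} (c : ℕ) (Ψ : GQ → Rj j) (ε : GQ → Fin 2 → Rj j)

/-- the tame relation at the conjugate place -/
def Nl (p : e.σ) : Matrix (Fin 2) (Fin 2 ⊕ Fin 2) (Rj j) :=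
  Nt (b.aa j Ψ (b.c * b.φ p * b.c)) (b.aa j Ψ (b.c * e.τ p * b.c)) p

/-- only the relations matter at a finite level -/
def gl : Gl (Rj j) GQ e.σ := ⟨1, ⊥, ∅, 0, fun _ => ∅, Nl b Ψ, 0, 0⟩

/-- the raw data of a presentation -/
structure Rw (R σ ι : Type) (r : ℕ) where
  Q : Matrix (Fin r) (Ix r σ ι) R
  l : σ → Matrix (Fin 2 ⊕ Fin 2) (Ix r σ ι) R
  u : GQ → Matrix (Fin 2) (Ix r σ ι) R
  t : Ix r σ ι → R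
  m : σ → Matrix (Fin 2) (Ix r σ ι) R

variable {ι : Type} [Fintype ι] [DecidableEq ι] {r : ℕ}

/-- the singular coordinates -/
def sc (w : ℕ → GQ → ℕ) (k : b.Kp j c Ψ) (u : GQ → Matrix (Fin 2) (Ix r e.σ ι) (Rj j)) :
    Matrix (Fin 2) (Ix r e.σ ι) (Rj j) :=
  w k.l k.τ • (!![0, -1; 1, 0] * (e.r b.c).map (cj j) * u k.τ)

/-- the package of a family of Kolyvagin primes -/
def pk (w : ℕ → GQ → ℕ) (k : ι → b.Kp j c Ψ) (d : Rw (Rj j) e.σ ι r)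
    (κ : Finset ι → Ix r e.σ ι → Rj j) : Pk (Rj j) GQ e.σ :=
  { ι := ι, r := r, Q := d.Q, l := d.l, u := d.u, t := d.t, m := d.m
    f := fun x => d.u ((k x.1).φ ^ 2) x.2, s := fun x => sc b c Ψ w (k x.1) d.u x.2, κ := κ }

/-- the relations -/
def Rw.Rm (d : Rw (Rj j) e.σ ι r) : Matrix (Fin r ⊕ e.σ × Fin 2) (Ix r e.σ ι) (Rj j) :=
  .of (Sum.elim d.Q fun x => (Nl b Ψ x.1 * d.l x.1) x.2)

/-- the bad primes of the stage -/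
def Tk (k : ι → b.Kp j c Ψ) : Finset ℕ := b.T c ∪ Finset.univ.image fun i => (k i).l

/-- **the universal property** -/
structure Un (k : ι → b.Kp j c Ψ) (d : Rw (Rj j) e.σ ι r) : Prop where
  inj : Function.Injective fun i => (k i).l
  bij : ∀ (M : Type) [AddCommGroup M] [Module (Rj j) M],
    BijOn (fun y : Ix r e.σ ι → M => (fun g => ac (d.u g) y, ∑ i, d.t i • y i, fun p => ac (d.m p) y))
      {y | ac (d.Rm b Ψ) y = 0} {x | b.Sel (Tk b c Ψ k) (b.aa j Ψ) ε x.1 x.2.1 x.2.2}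
  loc : ∀ p i, d.l p i - Sum.elim (d.u (b.c * b.φ p * b.c)) (d.u (b.c * e.τ p * b.c)) i ∈
    span (Rj j) (range (d.Rm b Ψ))

/-- `η` kills the local classes at `P` -/
def Vn (η : Rj j) (P : Ideal (𝓞 Qb)) : Prop :=
  ∀ (M : Type) [AddCommGroup M] [Module (Rj j) M] (T : Finset ℕ) (x : GQ → Fin 2 → M),
    Cc b.Γ T (b.aa j Ψ) x → ∃ m, ∀ g ∈ b.Γ ⊓ dec P, η • x g = ac (b.aa j Ψ g - 1) m

/-- the same at all relaxed places -/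
def Va (η : Rj j) : Prop := ∀ l ∈ b.T c, l ≠ pp → l ∉ e.σ → ∀ P, Ov l P →
  ∃ g ∈ b.Γ, Vn b Ψ η (g • P)

/-- `ε` is a local cocycle -/
structure Ec : Prop where
  coc : ∀ g ∈ dec (e.P pp), ∀ h ∈ dec (e.P pp), ε (g * h) = ε g + b.aa j Ψ g *ᵥ ε h
  lc : ∃ W : Subgroup GQ, IsOpen (W : Set GQ) ∧ ∀ w ∈ W, w ∈ dec (e.P pp) → ε w = 0

end level

/-- presentations exist, with a bounded number of relations -/
def LEV : Prop := ∀ (e : Crv) (b : Fld e) (m n : ℕ), ∃ r₀ : ℕ,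
  ∀ (j c : ℕ) (Ψ : GQ → Rj (j + 1)) ε, b.Chr (j + 1) c Ψ → Ec b Ψ ε →
  (∀ g ∈ b.Γ, X4F.Pat.rk j (Ψ g) = 1) → c.primeFactors.card ≤ m →
  (∃ q ∈ c.primeFactors, ∃ P, Ov q P ∧ dec P ≤ b.Γ ∧
    ∀ g ∈ dec P, (e.r g).map PadicInt.toZMod = 1) →
  ∀ (ι : Type) [Fintype ι] [DecidableEq ι] (k : ι → b.Kp (j + 1) c Ψ), Fintype.card ι ≤ n →
    (Function.Injective fun i => (k i).l) → ∃ r ≤ r₀, ∃ d : Rw _ e.σ ι r, Un b c Ψ ε k d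

/-- consequences of the universal property -/
def PK1 : Prop := ∀ (e : Crv) (b : Fld e) (j c : ℕ) (Ψ : GQ → Rj (j + 1)) ε (ι : Type) [Fintype ι]
  [DecidableEq ι] (k : ι → b.Kp (j + 1) c Ψ) (r : ℕ) (d : Rw _ e.σ ι r), Un b c Ψ ε k d →
  ∀ L, L = span (Rj (j + 1)) (range (d.Rm b Ψ)) →
  (∀ g ∈ b.Γ, ∀ h ∈ b.Γ, ∀ i, (d.u (g * h) - d.u g - b.aa _ Ψ g * d.u h) i ∈ L) ∧
  (∃ W : Subgroup GQ, IsOpen (W : Set GQ) ∧ ∀ w ∈ W, ∀ i, d.u w i ∈ L) ∧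
  (∀ g ∈ dec (e.P pp), ∀ i, d.u g i - ε g i • d.t ∈ L) ∧
  (∀ p : e.σ, ∀ g ∈ dec (e.P p), ∀ i, d.u g i - (b.aa _ Ψ g - 1) i ᵥ* d.m p ∈ L) ∧
  ∃ (g : Ix r e.σ ι → GQ) (i : Ix r e.σ ι → Fin 2), (∀ x, g x ∈ b.Γ) ∧
    span (Rj (j + 1)) (range fun x => d.u (g x) (i x)) ⊔ L ⊔
      span (Rj (j + 1)) (insert d.t {v | ∃ p i, v = d.m p i}) = ⊤

/-- one more prime -/
def EXL : Prop := ∀ (e : Crv) (b : Fld e) (j c : ℕ) (Ψ : GQ → Rj (j + 1)) ε w (ι : Type) [Fintype ι]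
  [DecidableEq ι] (k : Option ι → b.Kp (j + 1) c Ψ) (r r' : ℕ) (d : Rw _ e.σ ι r)
  (d' : Rw _ e.σ (Option ι) r'), b.Chr (j + 1) c Ψ → ¬ pp ∣ w (k none).l (k none).τ →
  Un b c Ψ ε (fun i => k (some i)) d → Un b c Ψ ε k d' →
  ∀ L L', L = span (Rj (j + 1)) (range (d.Rm b Ψ)) →
    L' = span (Rj (j + 1)) (range (d'.Rm b Ψ)) ⊔
      span (Rj (j + 1)) (range (sc b c Ψ w (k none) d'.u)) →
  ∃ (A : Matrix (Ix r' e.σ (Option ι)) (Ix r e.σ ι) (Rj (j + 1)))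
    (A' : Matrix (Ix r e.σ ι) (Ix r' e.σ (Option ι)) (Rj (j + 1))),
    (∀ v ∈ L', v ᵥ* A ∈ L) ∧ (∀ v ∈ L, v ᵥ* A' ∈ L') ∧ (∀ v, v ᵥ* A ᵥ* A' - v ∈ L') ∧
    (∀ g i, d'.u g i ᵥ* A - d.u g i ∈ L) ∧ d'.t ᵥ* A - d.t ∈ L ∧
    ∀ p i, d'.m p i ᵥ* A - d.m p i ∈ L

/-- reciprocity for the universal classes -/
def ISL : Prop := ∀ j : ℕ, ∃ w : ℕ → GQ → ℕ, (∀ l P τ, Ov l P → l ≠ pp → Gn l P τ → ¬ pp ∣ w l τ) ∧
  ∀ (e : Crv) (b : Fld e) (c : ℕ) (Ψ : GQ → Rj (j + 1)) ε η (ι : Type) [Fintype ι] [DecidableEq ι]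
    (k : ι → b.Kp (j + 1) c Ψ) (r : ℕ) (d : Rw _ e.σ ι r) κ, b.Chr (j + 1) c Ψ → Un b c Ψ ε k d →
    Va b c Ψ η → (pk b c Ψ w k d κ).Iso (gl b Ψ) η

/-- local vanishing at the primes of the conductor -/
def TWV : Prop := ∀ (e : Crv) (b : Fld e) (m : ℕ), ∃ c₀ : ℕ, ∀ (j c : ℕ) (Ψ : GQ → Rj j) q P,
  b.Chr j c Ψ → b.Gp m j q → Ov q P → (∀ g, Inert P g → Vn b Ψ ((Ψ g - 1) ^ 2) P) ∧
    ∀ 𝔟 : Ideal (Rj j), (∀ h ∈ b.Γ ⊓ dec P, Ψ h - 1 ∈ 𝔟) → ∃ v ∈ 𝔟, Vn b Ψ ((pp : Rj j) ^ c₀ + v) P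

/-! ### sequences -/

variable [Om]

/-- the character -/
def ps (j : ℕ) (χ χ' : GQ → ℕ) (g : GQ) : Rj j := mj j ((1 + X) ^ χ g * (1 + (pp : La) * om) ^ χ' g)

/-- the perturbed tower with its Euler system -/
structure Sq where
  m : ℕ
  k : ℕ
  c₀ : ℕ
  B : ℕ
  J : ℕ
  l : ℕ
  y : ℕ → ℕ
  c : ℕ → ℕ
  χ : ℕ → GQ → ℕ
  q : ℕ → ℕ
  χ' : ℕ → GQ → ℕ
  ε : ∀ j, GQ → Fin 2 → Rj (j + 1)
  κ : ∀ j, Finset (b.Kp (j + 1) (c j * q j) (ps (j + 1) (χ j) (χ' j))) → GQ → Fin 2 → Rj (j + 1)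
  t : ∀ j, Finset (b.Kp (j + 1) (c j * q j) (ps (j + 1) (χ j) (χ' j))) → Rj (j + 1)
  μ : ∀ j, Finset (b.Kp (j + 1) (c j * q j) (ps (j + 1) (χ j) (χ' j))) → e.σ → Fin 2 → Rj (j + 1)
  tw : ∀ᶠ j in U, b.Tw m (2 * (j + 1)) (c j) (χ j)
  pe : ∀ᶠ j in U, b.Pe m k y (2 * (j + 1)) (c j) (χ j) (q j) (χ' j)
  chr : ∀ᶠ j in U, b.Chr (j + 1) (c j * q j) (ps (j + 1) (χ j) (χ' j))
  es : ∀ᶠ j in U, b.Es c₀ (j + 1) (c j * q j) (ps (j + 1) (χ j) (χ' j)) (ε j) (κ j) (t j) (μ j)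
  an : ∀ᶠ j in U, t j ∅ ∉ Ideal.span {(pp : Rj (j + 1)), mj (j + 1) X ^ (l + 1)}
  BJ : B < J
  up : ∀ᶠ j in U, Nat.card (b.Z1 J (c j * q j) (χ j)) ≤ pp ^ B
  gs : Fin 3 → ℕ → b.Γ
  is : Fin 3 → Fin 2
  gv : ∀ i j, (gs i j : GQ) ∈ dec (e.P pp)
  β : La
  βe : β = det (Matrix.of fun i => Fin.snoc (α := fun _ => La)
    ((um (fun j => b.aa _ (ps (j + 1) (χ j) (χ' j)) (gs i j)) - 1) (is i))
    (ur fun j => ε j (gs i j) (is i)))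
  β0 : β ≠ 0
  sep : ∀ π : La, Prime π → ¬ π ∣ (pp : La) → ¬ π ∣ om →
    (∀ x, Sj π (um fun j => Nl b (ps (j + 1) (χ j) (χ' j)) x)) ∨
    (¬ π ∣ β ∧ ∃ x, (∃ i i', ¬ π ∣ um (fun j => Nl b (ps (j + 1) (χ j) (χ' j)) x) i i') ∧
      ∀ y, y ≠ x → Sj π (um fun j => Nl b (ps (j + 1) (χ j) (χ' j)) y))

namespace Sq

variable {b} (s : Sq b)

abbrev Ψ (j : ℕ) : GQ → Rj (j + 1) := ps (j + 1) (s.χ j) (s.χ' j)

abbrev C (j : ℕ) : ℕ := s.c j * s.q j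

omit [Pp] [Om] in
theorem sm {R : Type} [CommRing R] (x y : R) (A B : M2 R) : (x * y) • (A * B) = x • A * y • B := by
  rw [Matrix.smul_mul, Matrix.mul_smul, smul_smul]

omit [Om] in
theorem aa_mul {j c : ℕ} {Ψ : GQ → Rj j} (h : b.Chr j c Ψ) {g g' : GQ} (hg : g ∈ b.Γ)
    (hg' : g' ∈ b.Γ) : b.aa j Ψ (g * g') = b.aa j Ψ g * b.aa j Ψ g' := by
  simp only [Fld.aa, h.mul g hg g' hg', map_mul]
  rw [← sm, ← Matrix.map_mul]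

omit [Om] in
theorem aa_one {j c : ℕ} {Ψ : GQ → Rj j} (h : b.Chr j c Ψ) : b.aa j Ψ 1 = 1 := by
  simp [Fld.aa, h.ker 1 (one_mem _)]

/-- the representation of the group of sequences -/
def ρ : (ℕ → b.Γ) →* M2 La where
  toFun g := um fun j => b.aa _ (s.Ψ j) (g j)
  map_one' := by
    refine (Sy.succ.um_ae (B := fun j => (1 : M2 La).map (Ideal.Quotient.mk _))
      (s.chr.mono fun j h => ?_)).trans (Sy.succ.um_const _)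
    rw [Matrix.map_one _ (map_zero _) (map_one _)]
    exact aa_one h
  map_mul' g g' := (Sy.succ.um_ae (s.chr.mono fun j h => aa_mul h (g j).2 (g' j).2)).trans
    (Sy.succ.um_mul _ _)

/-- the exact conditions at almost all levels -/
def Hs (h : ℕ → b.Γ) : Prop := ∀ᶠ j in U,
  (∀ i i', (pp : ℤ_[pp]) ^ (j + 2) ∣ (e.r (h j) - 1) i i') ∧ s.Ψ j (h j) = 1

/-- the value of the character at the Frobenius element at `p` -/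
def ψ : La := ur fun j => s.Ψ j (b.φ pp)

/-- the limit of the global data -/
def γ (n : ℕ) : Gl La (ℕ → b.Γ) e.σ where
  ρ := s.ρ
  H := Subgroup.closure {h | s.Hs h}
  Dv := {g | ∀ j, (g j : GQ) ∈ dec (e.P pp)}
  e g i := ur fun j => s.ε j (g j) i
  D p := {g | ∀ j, (g j : GQ) ∈ dec (e.P p)}
  N p := um fun j => Nl b (s.Ψ j) p
  bv := if ∃ v, e.Iv pp v then pp * s.ψ ^ 2 - e.a pp * s.ψ + (if pp ∣ e.N then 0 else 1) else 1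
  c := n

/-- `θ` is the conjugation by `c` -/
def Th (θ : (ℕ → b.Γ) →* (ℕ → b.Γ)) : Prop := ∀ g j, (θ g j : GQ) = b.c * g j * b.c

/-- the group theoretic fields of `Sys` -/
structure Gk (n : ℕ) (θ : (ℕ → b.Γ) →* (ℕ → b.Γ)) : Prop where
  th : Th θ
  θθ : ∀ g, θ (θ g) = g
  mem : ∀ h, h ∈ (s.γ n).H ↔ s.Hs h
  nH : (s.γ n).H.Normal
  ρH : ∀ h ∈ (s.γ n).H, s.ρ h = 1
  θH : ∀ h ∈ (s.γ n).H, θ h ∈ (s.γ n).H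
  sah : ∃ z, ∃ a : La, s.ρ z = a • 1 ∧ (∀ π : La, Prime π → π ∣ a - 1 → π ∣ (pp : La) * om) ∧
    ∀ g, z * g * z⁻¹ * g⁻¹ ∈ (s.γ n).H
  spn : ∀ B, (pp : La) ^ n • B ∈ span La (range s.ρ)
  gen : ∃ g, ∃ a a' : La, s.ρ g = a • 1 ∧ s.ρ (θ g) = a' • 1 ∧
    ∀ π : La, Prime π → π ∣ a - a' → π ∣ (pp : La) * om
  bv0 : (s.γ n).bv ≠ 0
  av : ∃ A : M2 La, (∀ i, A i ∈ Au s.ρ (s.γ n).Dv) ∧ A.det ∣ (pp : La) ^ n * (s.γ n).bv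
  ap : ∀ x, ∃ E : M2 La, IsUnit E.det ∧ ∀ i, (((s.γ n).N x)ᵀ * E) i ∈ Au s.ρ ((s.γ n).D x)

/-- a sequence of level packages -/
structure Lm (w : ℕ → ℕ → GQ → ℕ) where
  ι : Type
  [fι : Fintype ι]
  [dι : DecidableEq ι]
  r : ℕ
  k : ∀ j, Option (ι → b.Kp (j + 1) (s.C j) (s.Ψ j))
  d : ∀ j, Rw (Rj (j + 1)) e.σ ι r
  f : ∀ j, ι × Fin 2 → Ix r e.σ ι → Rj (j + 1)
  s' : ∀ j, ι × Fin 2 → Ix r e.σ ι → Rj (j + 1)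
  κ : ∀ j, Finset ι → Ix r e.σ ι → Rj (j + 1)
  un : ∀ᶠ j in U, ∃ k', k j = some k' ∧ Un b (s.C j) (s.Ψ j) (s.ε j) k' (d j) ∧
    f j = (pk b (s.C j) (s.Ψ j) (w j) k' (d j) (κ j)).f ∧
    s' j = (pk b (s.C j) (s.Ψ j) (w j) k' (d j) (κ j)).s ∧
    ∀ n : Finset ι, (d j).Rm b (s.Ψ j) *ᵥ κ j n = 0 ∧ ∀ a,
      a = (∏ i ∈ n, (w j (k' i).l (k' i).τ : Rj (j + 1))) →
      (∀ g, a • ((d j).u g *ᵥ κ j n) = s.κ j (n.image k') g) ∧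
      a * ((d j).t ⬝ᵥ κ j n) = s.t j (n.image k') ∧
      ∀ p, a • ((d j).m p *ᵥ κ j n) = s.μ j (n.image k') p

attribute [instance] Lm.fι Lm.dι

variable {s}

/-- its limit -/
def Lm.pk {w : ℕ → ℕ → GQ → ℕ} (L : s.Lm w) : Pk La (ℕ → b.Γ) e.σ :=
  { ι := L.ι, r := L.r, Q := um fun j => (L.d j).Q, l := fun p => um fun j => (L.d j).l p
    u := fun g => um fun j => (L.d j).u (g j), t := fun i => ur fun j => (L.d j).t i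
    m := fun p => um fun j => (L.d j).m p, f := fun x i => ur fun j => L.f j x i
    s := fun x i => ur fun j => L.s' j x i, κ := fun n i => ur fun j => L.κ j n i }

end Sq

/-- weights prime to `p` -/
def Wt (w : ℕ → ℕ → GQ → ℕ) : Prop := ∀ j l P τ, Ov l P → l ≠ pp → Gn l P τ → ¬ pp ∣ w j l τ

/-- the zeros of the Euler factors can be separated -/
def SEP : Prop := ∀ (e : Crv) (b : Fld e) (m k : ℕ) (c : ℕ → ℕ) (χ : ℕ → GQ → ℕ) (β : La), k ≠ 0 →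
  β ≠ 0 → (∀ᶠ j in U, b.Tw m (2 * (j + 1)) (c j) (χ j)) → ∃ y : ℕ → ℕ,
  ∀ (q : ℕ → ℕ) (χ' : ℕ → GQ → ℕ), (∀ᶠ j in U, b.Pe m k y (2 * (j + 1)) (c j) (χ j) (q j) (χ' j)) →
  (∀ᶠ j in U, b.Chr (j + 1) (c j * q j) (ps (j + 1) (χ j) (χ' j))) →
  ∀ π : La, Prime π → ¬ π ∣ (pp : La) → ¬ π ∣ om →
    (∀ x, Sj π (um fun j => Nl b (ps (j + 1) (χ j) (χ' j)) x)) ∨
    (¬ π ∣ β ∧ ∃ x, (∃ i i', ¬ π ∣ um (fun j => Nl b (ps (j + 1) (χ j) (χ' j)) x) i i') ∧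
      ∀ y, y ≠ x → Sj π (um fun j => Nl b (ps (j + 1) (χ j) (χ' j)) y))

/-- the sequence exists -/
def SQX : Prop := ∀ (e : Crv) (b : Fld e) (m B J l : ℕ) (c : ℕ → ℕ) (χ : ℕ → GQ → ℕ),
  (∀ᶠ j in U, b.Tw m (2 * (j + 1)) (c j) (χ j)) →
  (∀ J, ∀ᶠ j in U, Nat.card (b.Z0 J (c j) (χ j)) ≤ pp ^ B) →
  (∀ᶠ j in U, b.An e.S (c j) (χ j) l) → ∃ (s : Sq b) (d : ℕ), s.l = l + d ∧
    ∀ᶠ j in U, Nat.card (b.Z0 J (c j) (χ j)) * pp ^ (2 * d) ≤ Nat.card (b.Z1 s.J (s.C j) (s.χ j))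

def GLB : Prop := ∀ (e : Crv) (b : Fld e) (s : Sq b), ∃ n θ, s.c₀ ≤ n ∧ s.Gk n θ

/-- the factor in the reciprocity law -/
def ETA : Prop := ∀ (e : Crv) (b : Fld e) (s : Sq b) (π : La), Prime π → ¬ π ∣ (pp : La) → ¬ π ∣ om →
  ∃ η : ∀ j, Rj (j + 1), ¬ π ∣ ur η ∧ ∀ᶠ j in U, Va b (s.C j) (s.Ψ j) (η j)

/-- every sequence of families has a package -/
def LMX : Prop := ∀ (e : Crv) (b : Fld e) (s : Sq b) w, Wt w → ∀ (ι : Type) [Fintype ι]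
  [DecidableEq ι] (k : ∀ j, Option (ι → b.Kp (j + 1) (s.C j) (s.Ψ j))),
  (∀ᶠ j in U, ∃ k', k j = some k' ∧ Function.Injective fun i => (k' i).l) →
  ∃ r d f s' κ un, (⟨ι, r, k, d, f, s', κ, un⟩ : s.Lm w).r = r

def LOK : Prop := ∀ (e : Crv) (b : Fld e) (s : Sq b) w n θ, Wt w → s.c₀ ≤ n → s.Gk n θ →
  ∀ L : s.Lm w, Ok (s.γ n) L.pk

def LIS : Prop := ∃ w, Wt w ∧ ∀ (e : Crv) (b : Fld e) (s : Sq b) n (π : La), Prime π →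
  ¬ π ∣ (pp : La) → ¬ π ∣ om → ∃ η, ¬ π ∣ η ∧ ∀ L : s.Lm w, L.pk.Iso (s.γ n) η

def LEX : Prop := ∀ (e : Crv) (b : Fld e) (s : Sq b) w n θ, Wt w → s.Gk n θ → ∀ L : s.Lm w,
  ∀ h ∈ (s.γ n).H, ∃ L' : s.Lm w, Nonempty (L.pk.Ext (s.γ n) L'.pk (θ h * h))

def NUM : Prop := ∀ (e : Crv) (b : Fld e) (s : Sq b) w n (L : s.Lm w), IsEmpty L.ι →
  map PadicInt.toZMod (L.pk.Mx (s.γ n)).det ≠ 0 ∧
  (∀ a, ¬ X ^ (a + 1) ∣ map PadicInt.toZMod (L.pk.Mx (s.γ n)).det →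
    ∀ᶠ j in U, Nat.card (b.Z1 s.J (s.C j) (s.χ j)) ≤ pp ^ a) ∧
  ¬ X ^ (s.l + 1) ∣ map PadicInt.toZMod (L.pk.t ⬝ᵥ L.pk.κ ∅)

/-- control at `T = 0` -/
def CT0 : Prop := ∀ (e : Crv) (b : Fld e) (s : Sq b) w n (L : s.Lm w), om = X → IsEmpty L.ι →
  ∀ N : ℕ, ∃ c, b.Cd (s.m + 1) N c ∧
    (∀ a ≤ 2 * N, (pp : ℤ_[pp]) ^ a ∣ constantCoeff (L.pk.Mx (s.γ n)).det →
      pp ^ a ≤ Nat.card (b.Zf (2 * N) c)) ∧
    ∀ i ≤ N, (∀ T, b.Tv c T → P004F.Qx.Fk (e.P pp) (pp ^ i * e.S.prod ^ 2) (b.hp T c)) →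
      (pp : ℤ_[pp]) ^ i ∣ constantCoeff (L.pk.t ⬝ᵥ L.pk.κ ∅)

/-- the patched system of a sequence -/
theorem sys (kg : KG) (h2 : GLB) (h3 : LMX) (h4 : LOK) (h5 : LIS) (h6 : LEX) (h7 : NUM) (e : Crv)
    (b : Fld e) (s : Sq b) : ∃ (w : _) (n : ℕ) (L : s.Lm w), IsEmpty L.ι ∧
      ((∀ π : La, Prime π → π ∣ om → ¬ π ∣ (L.pk.Mx (s.γ n)).det) →
        (L.pk.Mx (s.γ n)).det ∣ (L.pk.t ⬝ᵥ L.pk.κ ∅) ^ 2) := by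
  obtain ⟨n, θ, hn, g⟩ := h2 e b s
  obtain ⟨w, hw, hi⟩ := h5
  obtain ⟨r, d, f, s', κ, un, -⟩ := h3 e b s w hw Empty (fun _ => some fun i => i.elim)
    (.of_forall fun j => ⟨_, rfl, fun i => i.elim⟩)
  let o : s.Lm w := ⟨Empty, r, _, d, f, s', κ, un⟩
  have ho : IsEmpty o.ι := inferInstanceAs (IsEmpty Empty)
  obtain ⟨n1, -, n3⟩ := h7 e b s w n o ho
  refine ⟨w, n, o, ho, kg ⟨ℕ → b.Γ, e.σ, s.γ n, om, θ, g.θθ, g.nH, g.ρH, g.θH, g.sah, g.spn, g.gen, g.bv0,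
    g.av, g.ap, s.gs, s.is, s.gv, s.β, s.βe, s.β0, s.sep, range Sq.Lm.pk, ?_, fun π a a' a'' => ?_, ?_,
    o.pk, ⟨o, rfl⟩, ho, n1, fun z => n3 (by rw [z]; simp)⟩⟩
  · rintro _ ⟨L, rfl⟩
    exact h4 e b s w n θ hw hn g L
  · obtain ⟨η, k1, k2⟩ := hi e b s n π a a' a''
    exact ⟨η, k1, by rintro _ ⟨L, rfl⟩; exact k2 L⟩
  · rintro _ ⟨L, rfl⟩ h hh
    obtain ⟨L', k⟩ := h6 e b s w n θ hw g L h hh
    exact ⟨_, ⟨L', rfl⟩, k⟩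

end Vale.Agent.P014Y.F.Pa
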