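import Vale.Agent.P014Y.F.Ra.Lv
import Vale.Agent.P014Y.F.Pa.St

/-! # P014Y, block F, PAT, row ISL: reciprocity for the universal classes -/

set_option linter.all false

noncomputable section

namespace Vale.Agent.P014Y.F.Pa

open Matrix Submodule Set
open Vale.Agent.P022 Vale.Agent.P014U
open Vale.Agent.P004K (RC1 RC2)
open P004F.Pr (ac)

export Vale.Agent.P004F.Pa (ac_un rot_un)

variable [Pp]

/-- **the row ISL** -/
theorem isl (h : Rc.REC) (r1 : RC1) (r2 : RC2) : ISL := fun j => by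
  obtain ⟨w, hw, H⟩ := Ra.rw_of h (j + 1 + 1)
  refine ⟨w, hw, fun e b c Ψ ε η ι _ _ k r d κ hΨ un va => ?_⟩
  let L := span (Rj (j + 1)) (range (d.Rm b Ψ))
  have X := (un.bij ((Ix r e.σ ι → Rj (j + 1)) ⧸ L)).mapsTo
    (x := fun n => L.mkQ (Pi.single n 1)) (funext fun i => (ac_un L _ i).trans
      ((Submodule.Quotient.mk_eq_zero L).2 (subset_span ⟨i, rfl⟩)))
  have et := ac_un L (of fun _ : Unit => d.t) ()
  refine Ra.lev_mat r1 r2 H hΨ k un.inj (fun p => ?_) X (mem_span_singleton_self _) η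
    (fun p hp h2 hσ P ho => ?_) _ L.mkQ L.mkQ_surjective (fun v hv => ?_) (fun i n => ?_)
    fun i n => ?_
  · simp [Tk]
  · obtain ⟨u, hu, q⟩ := va p hp h2 hσ P ho
    exact ⟨u, hu, q _ _ _ X.toCc⟩
  · obtain ⟨a, ha⟩ := mem_span_singleton.1 hv
    have : v - a • d.t ∈ L := by
      rw [← Submodule.Quotient.eq]
      exact ha.symm.trans ((congrArg (a • ·) et).trans (map_smul L.mkQ a d.t).symm)
    rw [← sub_add_cancel v (a • d.t)]
    exact add_mem (span_mono (by rintro _ ⟨i, rfl⟩; exact ⟨some i, rfl⟩) this)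
      (smul_mem _ _ (subset_span ⟨none, rfl⟩))
  · exact (sub_eq_zero.2 (ac_un L (d.u ((k i).φ ^ 2)) n).symm).symm ▸ zero_mem _
  · have e' : (ac (d.u (k i).τ) fun n => L.mkQ (Pi.single n 1)) = fun n => L.mkQ (d.u (k i).τ n) :=
      funext (ac_un L _)
    have := rot_un L (w (k i).l (k i).τ) ((e.r b.c).map (cj (j + 1))) (d.u (k i).τ) n
    rw [← e', ← sub_eq_zero] at this
    exact this.symm ▸ zero_mem _

end Vale.Agent.P014Y.F.Pa
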