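import Vale.Agent.P014Y.F.St
import Vale.Agent.P004F.Pa.Lev0

/-! # P014Y, block F, PAT: the presentation with one free, some strict and some tame places -/

set_option linter.all false

open NumberField Matrix Submodule Set Sum
open scoped Pointwise

noncomputable section

namespace Vale.Agent.P014Y.F.Pa.Lv

open Vale.Agent.P022 Vale.Agent.P014U
open Vale.Agent.P022D.W (dec)
open Vale.Agent.P022E.GW (Ov)
open P004F.Pr (ac Zs)

export Vale.Agent.P004F.Pa.Lv (ac_mul sel ac_sel sel_mul ac_sub ac_fst ac_snd ac_mk F4 Tp Mu f1 f2 f3 bl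
  nl ac_nl ac_col Sl zs3 bij_pr)

variable [Pp] {R : Type} [CommRing R] {σ ι : Type} [Fintype σ] [DecidableEq σ] [Fintype ι]
  [DecidableEq ι] {Γ : Subgroup GQ} {T : Finset ℕ} {a : GQ → M2 R} {ε : GQ → Fin 2 → R}
  {P : Unit ⊕ σ ⊕ σ ⊕ ι → Ideal (𝓞 Qb)} {φ τ : σ ⊕ ι → GQ} {N : σ ⊕ ι → Matrix (Fin 2) F4 R}
  {b : σ ⊕ ι → GQ → Matrix (Fin 2) F4 R}

theorem core (hP : PRESN) [IsLocalRing R] [Finite R] (π : R →+* ZMod pp) (G : Gd Γ T a)
    (ht : ∀ x, Tp Γ a (P (inr (inr x))) (φ x) (τ x) (N x) (b x)) (h0 : ∀ i, N (inr i) = 0)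
    (ov : ∀ i, ∃ l ∈ T, Ov l (P i)) (un : ∀ i j, ∀ g ∈ Γ, P j = g • P i → i = j)
    (two : ∃ i, Ov pp (P i) ∧ dec (P i) ≤ Γ ∧ ∀ j, Ov pp (P j) → j = i)
    (coc : ∀ g ∈ dec (P (inl ())), ∀ h ∈ dec (P (inl ())), ε (g * h) = ε g + a g *ᵥ ε h)
    (lc : ∃ W : Subgroup GQ, IsOpen (W : Set GQ) ∧ ∀ w ∈ W, w ∈ dec (P (inl ())) → ε w = 0)
    (rel : ∃ l ∈ T, l ≠ pp ∧ ∃ Q, Ov l Q ∧ dec Q ≤ Γ ∧ (∀ g ∈ dec Q, (a g).map π = 1) ∧
      ∀ i, ∀ g ∈ Γ, Q ≠ g • P i) {C : ℕ}
    (bd : ∀ b' : _ → _ → Matrix (Fin 2) (Mu σ ι) (ZMod pp),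
      Nat.card (Zs (ZMod pp) Γ T (fun g => (a g).map π) P b') ≤ pp ^ C) :
    ∃ r ≤ C + Fintype.card σ * 2, ∃ (Q : Matrix (Fin r) (Ix r σ ι) R)
      (l : σ → Matrix F4 (Ix r σ ι) R) (u : GQ → Matrix (Fin 2) (Ix r σ ι) R) (t : Ix r σ ι → R)
      (m : σ → Matrix (Fin 2) (Ix r σ ι) R),
      ∀ Rm, Rm = Matrix.of (Sum.elim Q fun x : σ × Fin 2 => (N (inl x.1) * l x.1) x.2) →
      (∀ (M : Type) [AddCommGroup M] [Module R M],
        BijOn (fun y : Ix r σ ι → M => (fun g => ac (u g) y, ∑ i, t i • y i, fun p => ac (m p) y))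
          {y | ac Rm y = 0} (Sl M Γ T a ε P)) ∧
      ∀ p i, l p i - Sum.elim (u (φ (inl p))) (u (τ (inl p))) i ∈ span R (range Rm) := by
  refine (hP R π (Mu σ ι) (σ × Fin 2) _ Γ T a P (bl a ε b) (nl N) G ov un two ?_ ?_ rel).elim
    fun g ⟨r, Q, u, w, h1, h2, h3⟩ => ?_
  rotate_right
  · have c1 : Fintype.card (Ix r σ ι) = Fintype.card (Fin g) := by
      simp only [Fintype.card_sum, Fintype.card_prod, Fintype.card_fin, Fintype.card_unit,
        Fintype.card_option] at h3 ⊢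
      omega
    have c2 : g ≤ C + Fintype.card σ * 2 := by
      rw [← Nat.pow_le_pow_iff_right one_lt, pow_add]
      refine h2.trans ?_
      rw [Fintype.card_prod, Fintype.card_fin]
      exact Nat.mul_le_mul_right _ (bd _)
    let e := Fintype.equivOfCardEq c1
    refine ⟨r, ?_, Q.submatrix id e, fun p => w.submatrix (f3 (inl p)) e, fun γ => (u γ).submatrix id e,
      fun i => w (f1 ()) (e i), fun p => w.submatrix (f2 p) e, fun Rm hR => ?_⟩
    · simp only [Fintype.card_sum, Fintype.card_prod, Fintype.card_fin] at c1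
      omega
    have k0 : ∀ (M : Type) [AddCommGroup M] [Module R M] (y : Ix r σ ι → M),
        ac Rm y = 0 ↔ ac Q (y ∘ e.symm) = 0 ∧ ac (nl N * w) (y ∘ e.symm) = 0 := fun M _ _ y => by
      have : ∀ p, ac (N (inl p) * w.submatrix (f3 (inl p)) e) y =
          ac (N (inl p)) (ac w (y ∘ e.symm) ∘ f3 (inl p)) := fun p => by
        rw [ac_mul, ← ac_sub]; rfl
      rw [ac_mul, ac_nl, ← ac_sub, hR]
      simp only [← this]
      exact ⟨fun h => ⟨funext fun i => congrFun h (inl i), fun p => funext fun i =>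
        congrFun h (inr (p, i))⟩, fun h => funext fun i => i.rec (congrFun h.1)
          fun x => congrFun (h.2 x.1) x.2⟩
    have k2 : ∀ (M : Type) [AddCommGroup M] [Module R M] (y : Ix r σ ι → M) (s : Type) (f : s → _),
        ac (w.submatrix f e) y = ac w (y ∘ e.symm) ∘ f := fun M _ _ y s f => by
      rw [← ac_sub]; rfl
    refine ⟨fun M _ _ => ?_, fun p i => ?_⟩
    · have k1 : BijOn (fun y : Ix r σ ι → M => y ∘ e.symm) {y | ac Rm y = 0}
          {y | ac Q y = 0 ∧ ac (nl N * w) y = 0} :=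
        ⟨fun y h => (k0 M y).1 h, fun y _ y' _ h => e.symm.surjective.injective_comp_right h,
          fun z h => by
            have : (z ∘ e) ∘ e.symm = z := funext fun i => by simp
            exact ⟨z ∘ e, (k0 M _).2 (this.symm ▸ h), this⟩⟩
      refine ((bij_pr ht).comp ((h1 M).comp k1)).congr fun y _ => Prod.ext
        (funext fun γ => (ac_sub e _ y).symm) (Prod.ext ?_ (funext fun p => (k2 M y _ _).symm))
      exact (congrFun (k2 M y _ f1) ()).symm
    · have k3 := ac_mk (span R (range Rm)) Rm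
      have k4 := zs3 ht ((h1 _).mapsTo ((k0 _ _).1 (k3.trans (funext fun i =>
        (Submodule.Quotient.mk_eq_zero _).2 (subset_span ⟨i, rfl⟩))))).1 (inl p)
      simp only [← k2, ← ac_sub, ac_mk] at k4
      refine (Submodule.Quotient.eq _).1 ((congrFun k4 i).trans ?_)
      rcases i with i | i <;> rfl
  · rintro (_ | p | x) g hg h hh
    · refine ⟨0, ?_⟩
      rw [Matrix.zero_mul, add_zero, bl, bl, bl, coc g hg.2 h hh.2, ← Matrix.mul_assoc,
        ← Matrix.add_mul, replicateCol_add, replicateCol_mulVec]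
    · refine ⟨0, ?_⟩
      rw [Matrix.zero_mul, add_zero, bl, bl, bl, G.mul g hg.1 h hh.1, ← Matrix.mul_assoc,
        ← Matrix.add_mul]
      refine congrArg (· * _) ?_
      noncomm_ring
    · obtain ⟨β, e⟩ := (ht x).coc g hg h hh
      rw [bl, bl, bl, e, Matrix.add_mul, Matrix.add_mul, Matrix.mul_assoc, Matrix.mul_assoc]
      rcases x with p | i
      · exact ⟨β * sel R fun i : Fin 2 => (p, i), by rw [Matrix.mul_assoc, sel_mul]; rfl⟩
      · exact ⟨0, by rw [h0, Matrix.zero_mul, Matrix.mul_zero, Matrix.zero_mul]⟩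
  · rintro (_ | p | x)
    · obtain ⟨W, hW, e⟩ := lc
      exact ⟨W, hW, fun g hg w hw m => by
        rw [bl, bl, coc g hg.2 w hw.2, e w m hw.2, mulVec_zero, add_zero]⟩
    · obtain ⟨W, hW, e⟩ := G.lc
      exact ⟨W, hW, fun g hg w hw m => by rw [bl, bl, G.mul g hg.1 w hw.1, e w hw.1 m, mul_one]⟩
    · obtain ⟨W, hW, e⟩ := (ht x).lc
      exact ⟨W, hW, fun g hg w hw m => by rw [bl, bl, e g hg w hw m]⟩

end Vale.Agent.P014Y.F.Pa.Lv
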