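import Vale.Agent.P014Y.F.Pa.St
import Vale.Agent.P014Y.F.Pa.Lev0
import Vale.Agent.P014Y.F.Ra.Lv
import Vale.Agent.P004F.Pa.Lev

/-! # P014Y, block F, PAT: the row `LEV` (helper6) -/

set_option linter.all false

open NumberField Matrix Submodule Set Sum
open scoped Classical Pointwise

noncomputable section

namespace Vale.Agent.P014Y.F.Pa

open Vale.Agent.P022 Vale.Agent.P022K Vale.Agent.P014U
open Vale.Agent.P004K (RC1 RC2)
open Vale.Agent.P027M.S (Inert)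
open Vale.Agent.P022D.W (dec inP_le_dec phi_mem)
open Vale.Agent.P022E.GW (Ov Fb)
open P004F.Pr (ac Zs)
open X4F.Pat (rk)

variable [Pp]

namespace Lv

export Vale.Agent.P004F.Pa.Lv (ov_eq fb_cj in_cj unip zs_congr par)

variable {R : Type} [CommRing R] {Γ : Subgroup GQ} {T : Finset ℕ} {a : GQ → M2 R} {l : ℕ}
  {P : Ideal (𝓞 Qb)} {φ τ : GQ}

theorem tp_of [Finite R] (hL : LOCT) {k : ℕ} (h2 : (pp : R) ^ k = 0) (o : IsOpen (Γ : Set GQ))
    (one : a 1 = 1) (mul : ∀ g ∈ Γ, ∀ h ∈ Γ, a (g * h) = a g * a h)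
    (lc : ∃ W : Subgroup GQ, IsOpen (W : Set GQ) ∧ ∀ w ∈ Γ, w ∈ W → a w = 1) (f : ℕ)
    (ho : Ov l P) (hl : l ≠ pp) (hf : 0 < f) (fb : Fb l P φ) (gn : Gn l P τ)
    (hI : ∀ g, Inert P g → g ∈ Γ) (hφ : ∀ i : ℕ, φ ^ i ∈ Γ ↔ f ∣ i)
    (ord : ∀ g, Inert P g → ∃ n : ℕ, a g ^ pp ^ n = 1) :
    ∃ b, Tp Γ a P (φ ^ f) τ (Nt (a (φ ^ f)) (a τ) (l ^ f)) b := by
  obtain ⟨b, b1, b2, b3, b4, b5⟩ := hL R k h2 Γ l f P φ τ a ho hl hf fb gn hI hφ o one
    (fun g m j n => mul g m.1 j n.1) (lc.imp fun W k => ⟨k.1, fun w m => k.2 w m.1⟩) ord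
  exact ⟨b, ⟨(hφ f).2 dvd_rfl, pow_mem (phi_mem ho.1 ho.2.1 fb) f⟩, ⟨hI τ gn.1, inP_le_dec gn.1⟩,
    b1, b2, b3, b4, b5⟩

/-- transport to the conjugate place -/
theorem tp_cj (n : Γ.Normal) {c : GQ} (hc : c * c = 1) {N : Matrix (Fin 2) F4 R}
    {b : GQ → Matrix (Fin 2) F4 R} (h : Tp Γ (fun g => a (c * g * c)) P φ τ N b) :
    Tp Γ a (c • P) (c * φ * c) (c * τ * c) N fun g => b (c * g * c) := by
  have i : c⁻¹ = c := inv_eq_of_mul_eq_one_right hc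
  have e1 : ∀ g, c * (c * g * c) * c = g := fun g => by
    rw [← mul_assoc, ← mul_assoc, hc, one_mul, mul_assoc, hc, mul_one]
  have e2 : ∀ g h, c * (g * h) * c = c * g * c * (c * h * c) := fun g h => by
    rw [mul_assoc (c * g) c, ← mul_assoc c (c * h), ← mul_assoc c c, hc, one_mul]
    simp only [mul_assoc]
  have m1 : ∀ {Q : Ideal (𝓞 Qb)} {g}, g ∈ Γ ⊓ dec Q → c * g * c ∈ Γ ⊓ dec (c • Q) := fun m =>
    Subgroup.mem_inf.2 ⟨by simpa only [i] using n.conj_mem _ m.1 c, by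
      simpa only [i] using Ra.dec_cj (g := c) m.2⟩
  have m2 : ∀ {g}, g ∈ Γ ⊓ dec (c • P) → c * g * c ∈ Γ ⊓ dec P := fun m => by
    simpa only [← mul_smul, hc, one_smul] using m1 m
  have op : ∀ W : Subgroup GQ, IsOpen (W : Set GQ) → ∃ V : Subgroup GQ, IsOpen (V : Set GQ) ∧
      ∀ w ∈ V, c * w * c ∈ W := fun W hW => by
    obtain ⟨V, hV, le⟩ := G2.ex_lv' hW
    exact ⟨V, hV.opn, fun w m => le (by simpa only [i] using hV.nrm.conj_mem w m c)⟩
  refine ⟨m1 h.hφ, m1 h.hτ, fun g hg j hj => ?_, ?_, by rw [e1, h.bφ], by rw [e1, h.bτ],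
    fun M _ _ x cx ⟨W, hW, lx⟩ => ?_⟩
  · simpa only [e1, ← e2] using h.coc _ (m2 hg) _ (m2 hj)
  · obtain ⟨W, hW, k⟩ := h.lc
    obtain ⟨V, hV, v⟩ := op W hW
    exact ⟨V, hV, fun g hg w hw m => by rw [e2, k _ (m2 hg) _ (m2 hw) (v w m)]⟩
  · obtain ⟨V, hV, v⟩ := op W hW
    obtain ⟨k1, k2⟩ := h.un M (fun g => x (c * g * c))
      (fun g hg j hj => by rw [e2, cx _ (m1 hg) _ (m1 hj)]) ⟨V, hV, fun w hw m => lx _ (m1 hw) (v w m)⟩
    exact ⟨k1, fun g hg => by simpa only [e1] using k2 _ (m2 hg)⟩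

theorem ord {x : M2 R} (h : (x - 1) ^ 2 = 0) {u : R} {n : ℕ} (hu : u ^ pp ^ n = 1)
    (h2 : (pp : R) ^ n = 0) : (u • x) ^ pp ^ n = 1 := by
  rw [smul_pow, unip h, hu, one_smul, Nat.cast_pow, h2, zero_smul, add_zero]

variable {e : Crv} {b : Fld e} {j c : ℕ}

theorem res {Ψ : GQ → Rj (j + 1)} {g : GQ} (h : rk j (Ψ g) = 1) :
    (b.aa (j + 1) Ψ g).map (rk j) = (e.r g).map PadicInt.toZMod := by
  ext i i'
  rw [Ra.aa_eq, map_apply, Matrix.smul_apply, smul_eq_mul, map_mul, h, one_mul, Ra.rj_apply,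
    map_apply, map_apply]
  exact congrArg (PadicInt.toZMod (p := pp)) (PowerSeries.constantCoeff_C _)

theorem gd0 (r1 : RC1) (r2 : RC2) (b : Fld e) :
    Gd b.Γ e.S.toFinset fun g => (e.r g).map PadicInt.toZMod := by
  have G := Ra.gd (b := b) (j := 1) (c := 1) (Ψ := fun _ => 1) r1 r2 ⟨squarefree_one, by simp,
    fun _ _ _ _ => (mul_one _).symm, fun _ _ => rfl, fun _ _ => one_pow _⟩ (T := e.S.toFinset)
    (by simp [Fld.T]) fun l h => Ra.S_prime (List.mem_toFinset.1 h)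
  have k : ∀ g, b.aa 1 (fun _ => 1) g = 1 → (e.r g).map PadicInt.toZMod = 1 := fun g h => by
    rw [← res (b := b) (j := 0) (Ψ := fun _ => 1) (map_one _), h]
    exact Matrix.map_one _ (map_zero _) (map_one _)
  exact ⟨⟨G.opn, G.idx, G.cx, G.two, G.pr, k 1 G.one, fun g _ h _ => by rw [map_mul, Matrix.map_mul],
    G.lc.imp fun W h => ⟨h.1, fun w m m' => k w (h.2 w m m')⟩, fun g m i => k g (G.unr g m i)⟩, G.pm⟩

theorem sig (p : e.σ) : p.1 ∈ e.S ∧ p.1 ≠ pp :=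
  ⟨List.mem_toFinset.1 (Finset.mem_filter.1 p.2).1, (Finset.mem_filter.1 p.2).2.1⟩

theorem tp1 (hL : LOCT) (hU : UNI) {Ψ : GQ → Rj j} (h : b.Chr j c Ψ) (G : Gd b.Γ T (b.aa j Ψ))
    (p : e.σ) : ∃ β, Tp b.Γ (b.aa j Ψ) (b.c • e.P p) (b.c * b.φ p * b.c) (b.c * e.τ p * b.c)
      (Nl b Ψ p) β := by
  obtain ⟨h1, h2⟩ := sig p
  have n := Ra.nrm G.toGd
  have cm : ∀ g ∈ b.Γ, b.c * g * b.c ∈ b.Γ := fun g m => by
    simpa only [Ra.c_inv] using n.conj_mem g m b.c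
  have e2 : ∀ g h, b.c * (g * h) * b.c = b.c * g * b.c * (b.c * h * b.c) := fun g h => by
    rw [mul_assoc (b.c * g) b.c, ← mul_assoc b.c (b.c * h), ← mul_assoc b.c b.c, Ra.c_sq, one_mul]
    simp only [mul_assoc]
  have le := b.le p h1
  have ho := e.ov p h1
  have fb : Fb p (e.P p) (b.φ p) := b.ch.frb p h1
  obtain ⟨W, hW, lc⟩ := G.lc
  obtain ⟨V, hV, v⟩ := G2.ex_lv' hW
  obtain ⟨β, hβ⟩ := tp_of (a := fun g => b.aa j Ψ (b.c * g * b.c)) hL (Ra.two_Rj j) G.opn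
    (by simp only [mul_one, Ra.c_sq, G.one]) (fun g m g' m' => by rw [e2, G.mul _ (cm g m) _ (cm g' m')])
    ⟨V, hV.opn, fun w m m' => lc _ (cm w m) (v (by
      simpa only [Ra.c_inv] using hV.nrm.conj_mem w m' b.c))⟩ 1 ho h2 one_pos fb (e.gn p h1 h2)
    (fun g m => le (inP_le_dec m))
    (fun i => iff_of_true (pow_mem (le (phi_mem ho.1 ho.2.1 fb)) i) (one_dvd i)) fun g m => by
      have u := (hU e p p.2 _ m).1
      have v : (Ra.rj e j (b.c * g * b.c) - 1) ^ 2 = 0 := by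
        have c1 : Ra.rj e j b.c * Ra.rj e j b.c = 1 := by rw [← map_mul, Ra.c_sq, map_one]
        have w : Ra.rj e j (b.c * g * b.c) - 1 = Ra.rj e j b.c * (RingHom.mapMatrix (cj j))
            (e.r g - 1) * Ra.rj e j b.c := by
          rw [map_sub, map_one, mul_sub, sub_mul, mul_one, c1, map_mul, map_mul]
          rfl
        rw [w, sq, mul_assoc, mul_assoc, ← mul_assoc (Ra.rj e j b.c) (Ra.rj e j b.c * _),
          ← mul_assoc (Ra.rj e j b.c) (Ra.rj e j b.c), c1, one_mul,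
          ← mul_assoc (RingHom.mapMatrix _ _), ← map_mul, ← sq, u, map_zero, zero_mul, mul_zero]
      exact ⟨2 * j, ord v (h.ord _ (cm g (le (inP_le_dec m))))
        (pow_eq_zero_of_le (by omega) (Ra.two_Rj j))⟩
  simp only [pow_one] at hβ
  exact ⟨_, tp_cj n (Ra.c_sq b) hβ⟩

theorem tp2 (hL : LOCT) (r1 : RC1) (r2 : RC2) {Ψ : GQ → Rj j} (h : b.Chr j c Ψ)
    (G : Gd b.Γ T (b.aa j Ψ)) (k : b.Kp j c Ψ) : ∃ β, Tp b.Γ (b.aa j Ψ) k.P (k.φ ^ 2) k.τ 0 β := by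
  have K := Ra.kl k r1 r2 h
  have := tp_of hL (Ra.two_Rj j) G.opn G.one G.mul G.lc 2 K.ov K.ne two_pos K.fb K.gn (fun g m => K.ur m) (par G.toGd K.out)
    fun g m => ⟨0, by rw [K.ine g m, one_pow]⟩
  have e1 : ((k.l ^ 2 : ℕ) : Rj j) = 1 := by
    obtain ⟨y, hy⟩ := K.dv
    have : (k.l : Rj j) + 1 = 0 := by
      rw [← Nat.cast_succ, Nat.succ_eq_add_one, hy, Nat.cast_mul, Nat.cast_pow,
        Ra.two_Rj', zero_mul]
    rw [Nat.cast_pow]
    linear_combination ((k.l : Rj j) - 1) * this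
  rwa [K.sq, K.ine _ K.gn.1, show Nt (1 : M2 (Rj j)) 1 (k.l ^ 2) = 0 by
    rw [Nt, one_pow, sub_self, Finset.sum_congr rfl fun i _ => one_pow i, Finset.sum_const,
      Finset.card_range, ← Nat.cast_smul_eq_nsmul (Rj j), e1, one_smul, sub_self, fromCols_zero]] at this

end Lv

open Lv in
theorem lev (hP : PRESN) (hL : LOCT) (hB : BND) (hU : UNI) (r1 : RC1) (r2 : RC2) : LEV := by
  intro e b m n
  obtain ⟨C, hC⟩ := hB (Fin 2) _ _ _ (gd0 r1 r2 b)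
  refine ⟨C + (1 + (Fintype.card e.σ * 2 + (Fintype.card e.σ + n) * 4)) + 4 * (m + n) +
    Fintype.card e.σ * 2, fun j c Ψ ε h hε hΨ hm ⟨q, hq, Q, q1, q2, q3⟩ ι _ _ k hn inj => ?_⟩
  have hS : ∀ p ∈ e.S, p ∈ b.T c := fun p m => Finset.mem_union_left _ (List.mem_toFinset.2 m)
  have hT : b.T c ⊆ Tk b c Ψ k := Finset.subset_union_left
  have hk : ∀ i, (k i).l ∈ Tk b c Ψ k := fun i =>
    Finset.mem_union_right _ (Finset.mem_image_of_mem _ (Finset.mem_univ i))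
  have pr : ∀ l ∈ Tk b c Ψ k, l.Prime := fun l m => (Finset.mem_union.1 m).elim Ra.T_prime fun m => by
    obtain ⟨i, -, rfl⟩ := Finset.mem_image.1 m
    exact (k i).kp.ov.1
  have G := Ra.gd r1 r2 h hT pr
  let P : Unit ⊕ e.σ ⊕ e.σ ⊕ ι → Ideal (𝓞 Qb) := Sum.elim (fun _ => e.P pp) (Sum.elim (fun p => e.P p)
    (Sum.elim (fun p => b.c • e.P p) fun i => (k i).P))
  let L : Unit ⊕ e.σ ⊕ e.σ ⊕ ι → ℕ := Sum.elim (fun _ => pp) (Sum.elim (fun p => p)
    (Sum.elim (fun p => p) fun i => (k i).l))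
  have ov : ∀ i, Ov (L i) (P i) := by
    rintro (_ | p | p | i)
    exacts [e.ov pp e.pm, e.ov p (sig p).1, GW.ov_smul (e.ov p (sig p).1) _, (k i).kp.ov]
  have n1 : ∀ i p, p ∈ e.S → (k i).l ≠ p := fun i p m h => (k i).out (h ▸ hS p m)
  have n2 : ∀ p : e.σ, ∀ g, g • e.P p = e.P p → g ∈ b.Γ := fun p g h =>
    b.le p (sig p).1 ((GW.Pl.dec_iff _ _).2 h)
  have ht : ∀ x : e.σ ⊕ ι, ∃ β, Tp b.Γ (b.aa _ Ψ) (P (inr (inr x)))
      (Sum.elim (fun p : e.σ => b.c * b.φ p * b.c) (fun i => (k i).φ ^ 2) x)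
      (Sum.elim (fun p : e.σ => b.c * e.τ p * b.c) (fun i => (k i).τ) x)
      (Sum.elim (Nl b Ψ) 0 x) β := fun x => x.rec (tp1 hL hU h G) fun i => tp2 hL r1 r2 h G (k i)
  choose β ht using ht
  refine (core (C := C + Fintype.card (Mu e.σ ι) + 2 * Fintype.card (Fin 2) *
    (c.primeFactors ∪ Finset.univ.image fun i => (k i).l).card) hP (rk j) G ht (fun _ => rfl)
    (fun i => ⟨_, ?_, ov i⟩) (fun x y g hg H => ?_)
    ⟨inl (), ov (inl ()), b.le pp e.pm, fun y H => ?_⟩ hε.coc hε.lc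
    ⟨q, hT (Finset.mem_union_right _ hq), fun H => (h.cop q hq).1 (H ▸ e.pm), Q, q1, q2,
      fun g m => (res (hΨ g (q2 m))).trans (q3 g m), fun i g _ H => ?_⟩ fun b' => ?_).elim
    fun r ⟨hr, Q, l, u, t, μ, H⟩ => ?_
  rotate_right
  · obtain ⟨H1, H2⟩ := H _ rfl
    refine ⟨r, hr.trans (Nat.add_le_add_right ?_ _), ⟨Q, l, u, t, μ⟩, inj, fun M _ _ => ?_, H2⟩
    · have := (Finset.card_union_le c.primeFactors _).trans (Nat.add_le_add hm
        ((Finset.card_image_le (s := Finset.univ) (f := fun i => (k i).l)).trans hn))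
      simp only [Fintype.card_sum, Fintype.card_prod, Fintype.card_fin, Fintype.card_unit]
      omega
    · have E : Sl M b.Γ (Tk b c Ψ k) (b.aa _ Ψ) ε P =
          {x | b.Sel (Tk b c Ψ k) (b.aa _ Ψ) ε x.1 x.2.1 x.2.2} := Set.ext fun x =>
        ⟨fun x => ⟨x.1, fun g m => x.2.1 g ⟨b.le pp e.pm m, m⟩,
          fun p g m => x.2.2 p g ⟨b.le p (sig p).1 m, m⟩⟩,
          fun x => ⟨x.toCc, fun g m => x.sv g m.2, fun p g m => x.sp p g m.2⟩⟩
      have := H1 M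
      rwa [E] at this
  · rcases i with _ | p | p | i
    exacts [hT (hS pp e.pm), hT (hS p (sig p).1), hT (hS p (sig p).1), hk i]
  · have E := ov_eq (GW.ov_smul (ov x) g) (H ▸ ov y)
    rcases x with _ | p | p | i <;> rcases y with _ | p' | p' | i'
    · rfl
    · exact absurd E.symm (sig p').2
    · exact absurd E.symm (sig p').2
    · exact absurd E.symm (n1 i' pp e.pm)
    · exact absurd E (sig p).2
    · rw [Subtype.ext E]
    · obtain rfl := Subtype.ext E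
      exact absurd ((b.Γ.mul_mem_cancel_left (inv_mem hg)).1
        (n2 p (g⁻¹ * b.c) (by rw [mul_smul, inv_smul_eq_iff]; exact H))) (Ra.c_out b)
    · exact absurd E.symm (n1 i' p (sig p).1)
    · exact absurd E (sig p).2
    · obtain rfl := Subtype.ext E
      exact absurd ((b.Γ.mul_mem_cancel_left hg).1
        (n2 p (g * b.c) (by rw [mul_smul]; exact H.symm))) (Ra.c_out b)
    · rw [Subtype.ext E]
    · exact absurd E.symm (n1 i' p (sig p).1)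
    · exact absurd E (n1 i pp e.pm)
    · exact absurd E (n1 i p' (sig p').1)
    · exact absurd E (n1 i p' (sig p').1)
    · rw [inj E]
  · have E := ov_eq (ov y) H
    rcases y with _ | p | p | i
    exacts [rfl, absurd E (sig p).2, absurd E (sig p).2, absurd E (n1 i pp e.pm)]
  · have E := ov_eq (GW.ov_smul (ov i) g) (H ▸ q1)
    have n3 := (h.cop q hq).1
    rcases i with _ | p | p | i
    exacts [n3 (E ▸ e.pm), n3 (E ▸ (sig p).1), n3 (E ▸ (sig p).1),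
      (k i).out ((show (k i).l = q from E) ▸ Finset.mem_union_right _ hq)]
  · have := (hC (Mu e.σ ι) _ (c.primeFactors ∪ Finset.univ.image fun i => (k i).l) P b' fun l m =>
      pr l (by rw [Tk, Fld.T, Finset.union_assoc]; exact Finset.mem_union_right _ m)).2
    rw [← Finset.union_assoc] at this
    rwa [zs_congr fun g m => res (hΨ g m)]

end Vale.Agent.P014Y.F.Pa
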