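import Vale.Agent.P014Y.F.Pa.Lis

/-! # P014Y, block F, PAT: the row LEX (port of P004F; helper33) -/

set_option linter.all false

open NumberField Matrix Filter PowerSeries Submodule Set
open scoped Classical Pointwise

noncomputable section

namespace Vale.Agent.P014Y.F.Pa

open Vale.Agent.P022 Vale.Agent.P004K Vale.Agent.P014U
open P004F.Pr (ac)
open X4F.Pat (U Sy)
open X4F.Pa (odd_unit)

variable [Pp]

namespace Lx

variable {e : Crv} {b : Fld e} {j c : ℕ} {Ψ : GQ → Rj (j + 1)} {ε : GQ → Fin 2 → Rj (j + 1)}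
  {w : ℕ → GQ → ℕ} {ι : Type} [Fintype ι] [DecidableEq ι] {r r' : ℕ}

/-- the comparison at one level -/
structure Cm (d : Rw (Rj (j + 1)) e.σ ι r) (d' : Rw (Rj (j + 1)) e.σ (Option ι) r')
    (f s : ι × Fin 2 → Ix r e.σ ι → Rj (j + 1))
    (f' s' : Option ι × Fin 2 → Ix r' e.σ (Option ι) → Rj (j + 1))
    (κ : Finset ι → Ix r e.σ ι → Rj (j + 1))
    (κ' : Finset (Option ι) → Ix r' e.σ (Option ι) → Rj (j + 1)) (g : GQ)
    (L : Submodule (Rj (j + 1)) (Ix r e.σ ι → Rj (j + 1)))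
    (L' : Submodule (Rj (j + 1)) (Ix r' e.σ (Option ι) → Rj (j + 1)))
    (A : Matrix (Ix r' e.σ (Option ι)) (Ix r e.σ ι) (Rj (j + 1)) ×
      Matrix (Ix r e.σ ι) (Ix r' e.σ (Option ι)) (Rj (j + 1))) : Prop where
  a1 : ∀ v ∈ L', v ᵥ* A.1 ∈ L
  a2 : ∀ v ∈ L, v ᵥ* A.2 ∈ L'
  a3 : ∀ v, v ᵥ* A.1 ᵥ* A.2 - v ∈ L'
  u : ∀ g i, d'.u g i ᵥ* A.1 - d.u g i ∈ L
  t : d'.t ᵥ* A.1 - d.t ∈ L
  m : ∀ p i, d'.m p i ᵥ* A.1 - d.m p i ∈ L
  f : ∀ l i, f' (some l, i) ᵥ* A.1 - f (l, i) ∈ L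
  s : ∀ l i, s' (some l, i) ᵥ* A.1 - s (l, i) ∈ L
  new : ∀ i, f' (none, i) ᵥ* A.1 - d.u g i ∈ L
  κ : ∀ n, κ' (n.image some) = A.1 *ᵥ κ n

/-- the points of the Kolyvagin system -/
def Pt (w : ℕ → GQ → ℕ) (k : ι → b.Kp (j + 1) c Ψ) (d : Rw (Rj (j + 1)) e.σ ι r)
    (κ : Finset ι → Ix r e.σ ι → Rj (j + 1))
    (x : Finset (b.Kp (j + 1) c Ψ) → GQ → Fin 2 → Rj (j + 1))
    (t : Finset (b.Kp (j + 1) c Ψ) → Rj (j + 1))
    (μ : Finset (b.Kp (j + 1) c Ψ) → e.σ → Fin 2 → Rj (j + 1)) : Prop :=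
  ∀ n : Finset ι, d.Rm b Ψ *ᵥ κ n = 0 ∧ ∀ a, a = (∏ i ∈ n, (w (k i).l (k i).τ : Rj (j + 1))) →
    (∀ g, a • (d.u g *ᵥ κ n) = x (n.image k) g) ∧ a * (d.t ⬝ᵥ κ n) = t (n.image k) ∧
    ∀ p, a • (d.m p *ᵥ κ n) = μ (n.image k) p

theorem cm (h1 : PK1) (h4 : EXL) (k : Option ι → b.Kp (j + 1) c Ψ)
    {d : Rw (Rj (j + 1)) e.σ ι r} {d' : Rw (Rj (j + 1)) e.σ (Option ι) r'} {κ κ' x t μ} {g : GQ}
    (ch : b.Chr (j + 1) c Ψ) (od : ∀ i, ¬ pp ∣ w (k i).l (k i).τ)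
    (u : Un b c Ψ ε (fun i => k (some i)) d) (u' : Un b c Ψ ε k d')
    (p : Pt w (fun i => k (some i)) d κ x t μ) (p' : Pt w k d' κ' x t μ) (hg : g ∈ b.Γ)
    (hw : g⁻¹ * (k none).φ ^ 2 ∈ b.Γ)
    (hu : ∀ i, d.u (g⁻¹ * (k none).φ ^ 2) i ∈ span (Rj (j + 1)) (range (d.Rm b Ψ))) :
    ∃ A, Cm d d' (pk b c Ψ w (fun i => k (some i)) d κ).f (pk b c Ψ w (fun i => k (some i)) d κ).s
      (pk b c Ψ w k d' κ').f (pk b c Ψ w k d' κ').s κ κ' g (span _ (range (d.Rm b Ψ)))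
      (span _ (range (fromRows (d'.Rm b Ψ) (.of fun i => (pk b c Ψ w k d' κ').s (none, i))))) A := by
  obtain ⟨A, A', a1, a2, a3, a4, a5, a6⟩ := h4 e b j c Ψ ε w ι k r r' d d' ch (od none) u u' _ _ rfl
    (sp_rows (d'.Rm b Ψ) (sc b c Ψ w (k none) d'.u))
  set L := span (Rj (j + 1)) (range (d.Rm b Ψ))
  have rw : ∀ (M : M2 (Rj (j + 1))) (B : Matrix (Fin 2) _ (Rj (j + 1))) i, (∀ a, B a ∈ L) →
      (M * B) i ∈ L := fun M B i h => vm_mem h (M i)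
  refine ⟨(A, A'), a1, a2, a3, a4, a5, a6, fun l i => a4 _ i, fun l i => ?_, fun i => ?_, fun n => ?_⟩
  · have := smul_mem L (w (k (some l)).l (k (some l)).τ : Rj (j + 1))
      (rw (!![0, -1; 1, 0] * (e.r b.c).map (cj (j + 1)))
        (d'.u (k (some l)).τ * A - d.u (k (some l)).τ) i fun a => a4 _ a)
    rw [Matrix.mul_sub, ← Matrix.mul_assoc, Nat.cast_smul_eq_nsmul] at this
    show (sc b c Ψ w (k (some l)) d'.u * A - sc b c Ψ w (k (some l)) d.u) i ∈ L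
    rw [sc, sc, Matrix.smul_mul, ← smul_sub]
    exact this
  · have h2 := (h1 e b j c Ψ ε ι _ r d u L rfl).1 g hg _ hw i
    rw [mul_inv_cancel_left] at h2
    have := add_mem (a4 ((k none).φ ^ 2) i) (add_mem h2 (rw (b.aa _ Ψ g) _ i hu))
    have e1 : ∀ (y : _ → Rj (j + 1)) (x z t : Matrix (Fin 2) (Ix r e.σ ι) (Rj (j + 1))),
        y - x i + ((x - z - t) i + t i) = y - z i := fun y x z t => by
      funext a; simp
    rw [e1] at this
    exact this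
  · obtain ⟨q0, q⟩ := p n
    obtain ⟨q0', q'⟩ := p' (n.image some)
    obtain ⟨q1, q2, q3⟩ := q _ rfl
    obtain ⟨q1', q2', q3'⟩ := q' _ (Finset.prod_image (s := n) (g := some)
      (f := fun i => (w (k i).l (k i).τ : Rj (j + 1))) fun _ _ _ _ => Option.some.inj).symm
    rw [Finset.image_image] at q1' q2' q3'
    have un : IsUnit (∏ i ∈ n, (w (k (some i)).l (k (some i)).τ : Rj (j + 1))) :=
      IsUnit.prod_iff.2 fun i _ => odd_unit (od _)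
    have dt : ∀ {v' v}, v' ᵥ* A - v ∈ L → v' ⬝ᵥ (A *ᵥ κ n) = v ⬝ᵥ κ n := fun h => by
      rw [dotProduct_mulVec, ← sub_eq_zero, ← sub_dotProduct]
      exact dot_zero h q0
    refine (u'.bij (Rj (j + 1))).injOn q0' (funext fun i => ?_) (Prod.ext (funext fun g => ?_)
      (Prod.ext ?_ (funext fun p => ?_)))
    · exact (dt (v := 0) (by
        rw [sub_zero]
        exact a1 _ (subset_span ⟨.inl i, rfl⟩))).trans (zero_dotProduct _)
    · exact (un.smul_left_cancel.1 ((q1' g).trans (q1 g).symm)).trans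
        (funext fun i => (dt (a4 g i)).symm)
    · exact (un.mul_left_cancel (q2'.trans q2.symm)).trans (dt a5).symm
    · exact (un.smul_left_cancel.1 ((q3' p).trans (q3 p).symm)).trans
        (funext fun i => (dt (a6 p i)).symm)

end Lx

open Lx in
/-- **row LEX** -/
theorem lex [Om] (h1 : PK1) (h2 : KPX) (h3 : LMX) (h4 : EXL) : LEX := by
  intro e b s w n θ hw g L h hh
  let p : ∀ j, (Option L.ι → b.Kp (j + 1) (s.C j) (s.Ψ j)) → Prop := fun j k =>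
    L.k j = some (fun i => k (some i)) ∧ (Function.Injective fun i => (k i).l) ∧
      ((θ h * h) j : GQ)⁻¹ * (k none).φ ^ 2 ∈ b.Γ ∧ ∀ i, (L.d j).u (((θ h * h) j : GQ)⁻¹ *
        (k none).φ ^ 2) i ∈ span (Rj (j + 1)) (range ((L.d j).Rm b (s.Ψ j)))
  have ex : ∀ᶠ j in U, ∃ k, p j k := ((L.un.and s.chr).and ((g.mem h).1 hh)).mono fun j a => by
    obtain ⟨⟨⟨k', e0, u, -⟩, ch⟩, c1, c3⟩ := a
    obtain ⟨W, hW, w0⟩ := (h1 e b j _ _ _ _ k' _ _ u _ rfl).2.1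
    obtain ⟨k, n0, m⟩ := h2 e b (j + 1) _ _ ch _ (h j).2 c1 c3 (W ⊓ b.Γ)
      (hW.inter (H916.isOpen_GK b.j)) (Finset.univ.image fun i => (k' i).l)
    have e1 : ((θ h * h) j : GQ) = b.c * h j * (b.c * h j) := by
      rw [Pi.mul_apply, Subgroup.coe_mul, g.th, mul_assoc]
    refine ⟨fun o => o.elim k k', e0, ?_, e1 ▸ m.2, e1 ▸ w0 _ m.1⟩
    rintro (_ | x) (_ | y) q
    · rfl
    · exact absurd (Finset.mem_image.2 ⟨y, Finset.mem_univ _, Eq.symm q⟩) n0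
    · exact absurd (Finset.mem_image.2 ⟨x, Finset.mem_univ _, q⟩) n0
    · exact congrArg some (u.inj q)
  let K := fun j => if a : ∃ k, p j k then some a.choose else none
  obtain ⟨r', d', f', s', κ', un', -⟩ := h3 e b s w hw (Option L.ι) K (ex.mono fun j a =>
    ⟨a.choose, dif_pos a, a.choose_spec.2.1⟩)
  let L' : s.Lm w := ⟨Option L.ι, r', K, d', f', s', κ', un'⟩
  let R' := fun j => fromRows ((d' j).Rm b (s.Ψ j)) (.of fun i : Fin 2 => s' j (none, i))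
  let q := fun j => Cm (L.d j) (d' j) (L.f j) (L.s' j) (f' j) (s' j) (L.κ j) (κ' j) ((θ h * h) j)
    (span _ (range ((L.d j).Rm b (s.Ψ j)))) (span _ (range (R' j)))
  have ex2 : ∀ᶠ j in U, ∃ A, q j A := (((L.un.and un').and s.chr).and ex).mono fun j a => by
    obtain ⟨⟨⟨⟨k1, e1, u1, f1, s1, p1⟩, k, e2, u2, f2, s2, p2⟩, ch⟩, a⟩ := a
    obtain rfl : a.choose = k := Option.some.inj ((dif_pos a).symm.trans e2)
    obtain ⟨e3, -, m1, m2⟩ := a.choose_spec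
    obtain rfl : k1 = _ := Option.some.inj (e1.symm.trans e3)
    simp only [q, R', f1, s1, f2, s2]
    exact cm h1 h4 _ ch (fun i => hw j _ _ _ (a.choose i).kp.ov (a.choose i).kp.ne (a.choose i).kp.gn)
      u1 u2 p1 p2 ((θ h * h) j).2 m1 m2
  let A := fun j => if a : ∃ A, q j A then a.choose else 0
  have c : ∀ᶠ j in U, q j (A j) := ex2.mono fun j a => by
    simp only [A, dif_pos a]
    exact a.choose_spec
  have tr : ∀ {v' : ∀ j, _ → Rj (j + 1)} {v : ∀ j, _ → Rj (j + 1)}, (∀ j, q j (A j) →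
      v' j ᵥ* (A j).1 - v j ∈ span (Rj (j + 1)) (range ((L.d j).Rm b (s.Ψ j)))) →
      lv v' ᵥ* um (fun j => (A j).1) - lv v ∈ L.pk.Rl (s.γ n) := fun a => by
    have := Rl_lim L n (c.mono a)
    rwa [lv_sub, lv_vecMul] at this
  have hR : span La (range (um R')) =
      L'.pk.Rl (s.γ n) ⊔ span La (range fun i => L'.pk.s (none, i)) := by
    refine Eq.trans (congrArg (fun M => span La (range M)) ?_)
      (sp_rows (L'.pk.Rm (s.γ n)) (.of fun i : Fin 2 => L'.pk.s (none, i)))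
    rw [Rm_lim]
    refine Matrix.ext fun a i => ?_
    cases a <;> rfl
  refine ⟨L', ⟨⟨Equiv.refl _, um fun j => (A j).1, fun v => ?_, fun x i => tr fun j a => a.u _ i,
    tr fun j a => a.t, fun x i => tr fun j a => a.m x i, fun l i => tr fun j a => a.f l i,
    fun l i => tr fun j a => a.s l i, fun i => tr fun j a => a.new i, fun m => ?_⟩⟩⟩
  · refine Iff.trans ?_ (iff_of_eq (congrArg (v ∈ ·) hR))
    rw [P004F.Pk.Rl, Rm_lim]
    exact ker_lim (c.mono fun j a => ⟨a.a1, a.a2, a.a3⟩) v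
  · exact (lv_ae (c.mono fun j a => a.κ m)).trans (lv_mulVec _ _)

end Vale.Agent.P014Y.F.Pa
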