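import Vale.Agent.P014Y.F.Pa.St
import Vale.Agent.P014Y.F.Pa.Pw
import Vale.Agent.P004F.Alg.Lam

/-! # P014Y, block F, PAT: the row NUM (port of P004F; helper33) -/

set_option linter.all false

open NumberField Matrix Filter PowerSeries Submodule Set
open scoped Classical

noncomputable section

namespace Vale.Agent.P014Y.F.Pa

open Vale.Agent.P022 Vale.Agent.P004K Vale.Agent.P014U
open P004F.Pr (ac)
open X4F.Pat (U Sy Im)

variable [Pp] [Om]

namespace Nm

variable {e : Crv} (b : Fld e)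

theorem aa_rq {J j : ℕ} (h : J ≤ j + 1) (χ χ' : GQ → ℕ) (g : GQ) :
    (b.aa _ (ps (j + 1) χ χ') g).map (rq h) = b.ab J χ g := by
  have a : rq h (ps (j + 1) χ χ' g) = (Ideal.Quotient.mk _ (1 + X) : Rb J) ^ χ g := by
    refine (Ideal.Quotient.lift_mk _ _ _).trans ?_
    simp only [map_mul, map_pow, map_add, map_one, map_natCast, rb_p]
    simp [rb]
  have c : ∀ x, rq h (cj _ x) = cb J x := fun x => by
    refine (Ideal.Quotient.lift_mk _ _ _).trans ?_
    simp [rb, cb]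
  ext i i'
  simp only [Fld.aa, Fld.ab, Matrix.map_apply, Matrix.smul_apply, smul_eq_mul]
  simp only [map_mul, a, c]

/-- the kernel of the matrix of a stage without Kolyvagin primes -/
theorem card {J j : ℕ} (h : J ≤ j + 1) {c : ℕ} {χ χ' : GQ → ℕ} {ε} {ι : Type} [Fintype ι]
    [DecidableEq ι] [IsEmpty ι] {k : ι → b.Kp (j + 1) c (ps (j + 1) χ χ')} {r : ℕ}
    {d : Rw _ e.σ ι r} (u : Un b c (ps (j + 1) χ χ') ε k d) (s) :
    Nat.card {y // (Matrix.of (Sum.elim (d.Rm b (ps (j + 1) χ χ')) fun o : Option (ι × Fin 2) =>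
      o.elim d.t s)).map (rq h) *ᵥ y = 0} = Nat.card (b.Z1 J c χ) := by
  let _ := (rq h).toAlgebra
  have B := u.bij (Rb J)
  have T : Tk b c _ k = b.T c := by simp [Tk]
  have a : ∀ g (x : Fin 2 → Rb J), ac (b.aa _ (ps (j + 1) χ χ') g) x = ac (b.ab J χ g) x :=
    fun g x => by rw [← aa_rq b h χ χ']; rfl
  have a' : ∀ g (x : Fin 2 → Rb J),
      ac (b.aa _ (ps (j + 1) χ χ') g - 1) x = ac (b.ab J χ g - 1) x := fun g x => by
    rw [← aa_rq b h χ χ', ← Matrix.map_one (rq h) (map_zero _) (map_one _),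
      ← Matrix.map_sub _ (map_sub _)]
    rfl
  have S : ∀ (x : GQ → Fin 2 → Rb J) m, b.Sel (Tk b c _ k) (b.aa _ (ps (j + 1) χ χ')) ε x 0 m ↔
      (x, m) ∈ b.Z1 J c χ := fun x m => by
    rw [T]
    exact ⟨fun q => ⟨⟨by simpa only [a] using q.coc, q.out, q.lc, q.unr⟩,
        by simpa using q.sv, by simpa only [a'] using q.sp⟩,
      fun q => ⟨⟨by simpa only [a] using q.coc, q.1.out, q.lc, q.unr⟩,
        by simpa using q.sv, by simpa only [a'] using q.sp⟩⟩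
  have K : ∀ y : Ix r e.σ ι → Rb J, (Matrix.of (Sum.elim (d.Rm b (ps (j + 1) χ χ'))
      fun o : Option (ι × Fin 2) => o.elim d.t s)).map (rq h) *ᵥ y = 0 ↔
      ac (d.Rm b (ps (j + 1) χ χ')) y = 0 ∧ ∑ i, d.t i • y i = 0 := fun y =>
    ⟨fun q => ⟨funext fun i => congrFun q (.inl i), congrFun q (.inr none)⟩, fun q => funext fun
      | .inl i => congrFun q.1 i
      | .inr none => q.2
      | .inr (some x) => isEmptyElim x.1⟩
  refine Nat.card_congr (Equiv.ofBijective (fun y => ⟨(fun g => ac (d.u g) y.1,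
    fun p => ac (d.m p) y.1), (S _ _).1 (((K _).1 y.2).2 ▸ B.mapsTo ((K _).1 y.2).1)⟩)
    ⟨fun y z q => Subtype.ext (B.injOn ((K _).1 y.2).1 ((K _).1 z.2).1 ?_), fun x => ?_⟩)
  · obtain ⟨q1, q2⟩ := Prod.mk.inj (Subtype.mk.inj q)
    simp only [q1, q2, ((K _).1 y.2).2, ((K _).1 z.2).2]
  · obtain ⟨y, q1, q2⟩ := B.surjOn (a := (x.1.1, 0, x.1.2)) ((S _ _).2 x.2)
    simp only [Prod.mk.injEq] at q2
    exact ⟨⟨y, (K _).2 ⟨q1, q2.2.1⟩⟩, Subtype.ext (Prod.ext q2.1 q2.2.2)⟩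

end Nm

open Nm

/-- **row NUM** -/
theorem num : NUM := by
  intro e b s w n L hι
  have J0 : s.J ≠ 0 := (s.B.zero_le.trans_lt s.BJ).ne'
  have A : L.pk.Mx (s.γ n) = um fun j => Matrix.of (Sum.elim ((L.d j).Rm b (s.Ψ j))
      fun o : Option (L.ι × Fin 2) => o.elim (L.d j).t (L.s' j)) := by
    ext1 (( i | x) | _ | x) i'
    · rfl
    · exact congrFun₂ (Sy.succ.um_mul (fun j => Nl b (s.Ψ j) x.1) fun j => (L.d j).l x.1).symm x.2 i'
    · rfl
    · rfl
  have T : L.pk.t ⬝ᵥ L.pk.κ ∅ = ur fun j => s.t j ∅ := by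
    refine Eq.trans ?_ (Sy.succ.ur_ae (x := fun j => (L.d j).t ⬝ᵥ L.κ j ∅) (L.un.mono ?_))
    · simp only [Sq.Lm.pk, dotProduct, ← map_mul, ← map_sum]
      exact congrArg _ (funext fun j => by simp only [Finset.sum_apply, Pi.mul_apply]; rfl)
    · rintro j ⟨k, -, -, -, -, q⟩
      simpa using ((q ∅).2 _ rfl).2.1
  have N := P004F.Alg.cnt_ps (Ideal.Quotient.mk _ : _ →+* Rb s.J) Ideal.Quotient.mk_surjective
    (j := s.J) (fun x => Ideal.Quotient.eq_zero_iff_mem.trans Ideal.mem_span_singleton)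
    ((L.pk.Mx (s.γ n)).map m2)
  have c : ∀ᶠ j in U, Nat.card {y // ((L.pk.Mx (s.γ n)).map m2).map
      (Ideal.Quotient.mk _ : _ →+* Rb s.J) *ᵥ y = 0} = Nat.card (b.Z1 s.J (s.C j) (s.χ j)) :=
    (L.un.and ((X4F.Pat.U_ge s.J).and (Sy.succ.um_spec (fun j => Matrix.of (Sum.elim
      ((L.d j).Rm b (s.Ψ j)) fun o : Option (L.ι × Fin 2) => o.elim (L.d j).t (L.s' j))) s.J))).mono
      fun j ⟨⟨k, _, u, _⟩, h, q⟩ => by
    have E : ((L.pk.Mx (s.γ n)).map m2).map (Ideal.Quotient.mk _ : _ →+* Rb s.J) =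
        (Matrix.of (Sum.elim ((L.d j).Rm b (s.Ψ j)) fun o : Option (L.ι × Fin 2) =>
          o.elim (L.d j).t (L.s' j))).map (rq (h.trans j.le_succ)) := by
      ext1 i i'
      obtain ⟨y, hy⟩ := Ideal.Quotient.mk_surjective (Matrix.of (Sum.elim ((L.d j).Rm b (s.Ψ j))
        fun o : Option (L.ι × Fin 2) => o.elim (L.d j).t (L.s' j)) i i')
      have := rb_Im J0 le_rfl (q i i' y hy)
      rw [map_sub, sub_eq_zero] at this
      rw [A]
      exact this.symm.trans (congrArg (rq (h.trans j.le_succ)) hy)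
    rw [E]
    exact card b (h.trans j.le_succ) u (L.s' j)
  rw [Nat.card_zmod, ← RingHom.mapMatrix_apply m2, ← RingHom.map_det, RingHom.mapMatrix_apply] at N
  refine ⟨fun z => ?_, fun a z => c.mono fun j k => k ▸ N.1 a z, fun z => ?_⟩
  · obtain ⟨j, k, up⟩ := (c.and s.up).exists
    exact ((N.2 z).trans (k.le.trans up)).not_gt (Nat.pow_lt_pow_right one_lt s.BJ)
  · obtain ⟨j, a, q⟩ := (s.an.and (Sy.succ.ur_spec (fun j => s.t j ∅) (s.l + 1))).exists
    obtain ⟨y, hy⟩ := Ideal.Quotient.mk_surjective (s.t j ∅)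
    have i : Im (s.l + 1) ≤ Ideal.span {(pp : La), (X : La) ^ (s.l + 1)} := Ideal.span_le.2 (by
      rintro _ (rfl | rfl)
      · exact Ideal.pow_mem_of_mem _ (Ideal.subset_span (by simp)) _ (Nat.succ_pos _)
      · exact Ideal.subset_span (by simp))
    have := Ideal.mem_map_of_mem (mj (j + 1)) (Ideal.add_mem _ (i (q y hy)) (mem_two (T ▸ z)))
    rw [sub_add_cancel, hy, Ideal.map_span, image_pair, map_natCast, map_pow] at this
    exact a this

end Vale.Agent.P014Y.F.Pa
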