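import Vale.Agent.P014Y.F.Pa.St

/-! # P014Y, block F, PAT: the universal class (row PK1) -/

set_option linter.all false

open NumberField Matrix Submodule Set
open scoped Classical

noncomputable section

namespace Vale.Agent.P014Y.F.Pa

open Vale.Agent.P022 Vale.Agent.P014U
open Vale.Agent.P022D.W (dec)
open P004F.Pr (ac)

export Vale.Agent.P004F.Pa (nak up sum_up ac_up ac_mk mk_zero)

variable [Pp] {e : Crv} {b : Fld e} {j c : ℕ} {Ψ : GQ → Rj j} {ε : GQ → Fin 2 → Rj j} {ι : Type}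
  [Fintype ι] [DecidableEq ι] {k : ι → b.Kp j c Ψ} {r : ℕ} {d : Rw (Rj j) e.σ ι r}

theorem up_rel {L : Submodule (Rj j) (Ix r e.σ ι → Rj j)}
    (h : span (Rj j) (range (d.Rm b Ψ)) ≤ L) : ac (d.Rm b Ψ) (up L) = 0 :=
  funext fun i => (ac_up L _ i).trans ((mk_zero L).2 (h (subset_span (mem_range_self i))))

/-- the universal class -/
theorem Un.sel (h : Un b c Ψ ε k d) {L : Submodule (Rj j) (Ix r e.σ ι → Rj j)}
    (hL : span (Rj j) (range (d.Rm b Ψ)) ≤ L) : b.Sel (Tk b c Ψ k) (b.aa j Ψ) ε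
      (fun g i => L.mkQ (d.u g i)) (L.mkQ d.t) fun p i => L.mkQ (d.m p i) := by
  have := (h.bij _).mapsTo (up_rel hL)
  simp only [mem_setOf_eq, sum_up] at this
  rwa [show (fun g => ac (d.u g) (up L)) = fun g i => L.mkQ (d.u g i) from
      funext fun g => funext (ac_up L _),
    show (fun p => ac (d.m p) (up L)) = fun p i => L.mkQ (d.m p i) from
      funext fun p => funext (ac_up L _)] at this

/-- the values of the universal class generate -/
theorem Un.top (h : Un b c Ψ ε k d) {L : Submodule (Rj j) (Ix r e.σ ι → Rj j)}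
    (hL : span (Rj j) (range (d.Rm b Ψ)) ≤ L) (hu : ∀ g ∈ b.Γ, ∀ i, d.u g i ∈ L) (ht : d.t ∈ L)
    (hm : ∀ p i, d.m p i ∈ L) : L = ⊤ := by
  have u : ∀ g i, d.u g i ∈ L := fun g i => by
    by_cases m : g ∈ b.Γ
    · exact hu g m i
    · exact (mk_zero L).1 (congrFun ((h.sel hL).out g m) i)
  have z : ∀ A : Matrix (Fin 2) _ (Rj j), (∀ i, A i ∈ L) → ac A (up L) = ac A 0 := fun A m => by
    rw [P004F.Pr.ac_zero]
    exact funext fun i => (ac_up L _ i).trans ((mk_zero L).2 (m i))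
  have := (h.bij _).injOn (up_rel hL) (P004F.Pr.ac_zero _) (Prod.ext (funext fun g => z _ (u g))
    (Prod.ext ((sum_up L _).trans (((mk_zero L).2 ht).trans (by simp))) (funext fun p => z _ (hm p))))
  refine eq_top_iff.2 fun v _ => (mk_zero L).1 ?_
  rw [← sum_up, this]
  simp

theorem pk1 : PK1 := by
  intro e b j c Ψ ε ι _ _ k r d h L hL
  have S := h.sel hL.ge
  refine ⟨fun g hg g' hg' i => (mk_zero L).1 ?_, ?_, fun g hg i => (mk_zero L).1 ?_,
    fun p g hg i => (mk_zero L).1 ?_, ?_⟩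
  · have := congrFun (S.coc g hg g' hg') i
    rw [Pi.add_apply, ac_mk] at this
    show L.mkQ (d.u (g * g') i - d.u g i - b.aa _ Ψ g i ᵥ* d.u g') = 0
    rw [map_sub, map_sub, this, add_sub_cancel_left, sub_self]
  · obtain ⟨W, hW, w⟩ := S.lc
    exact ⟨W, hW, fun x m i => (mk_zero L).1 (congrFun (w x m) i)⟩
  · rw [map_sub, map_smul, sub_eq_zero]
    exact S.sv g hg i
  · rw [map_sub, sub_eq_zero, ← ac_mk]
    exact congrFun (S.sp p g hg) i
  · obtain ⟨f, hf⟩ := nak (fun a : b.Γ × Fin 2 => d.u a.1 a.2)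
      (L ⊔ span _ (insert d.t {v | ∃ p i, v = d.m p i})) (h.top
        (hL.ge.trans (le_sup_left.trans le_sup_right))
        (fun g m i => mem_sup_left (subset_span (mem_range_self ((⟨g, m⟩ : b.Γ), i))))
        (mem_sup_right (mem_sup_right (subset_span (mem_insert _ _))))
        fun p i => mem_sup_right (mem_sup_right (subset_span (mem_insert_of_mem _ ⟨p, i, rfl⟩))))
    exact ⟨fun x => (f x).1, fun x => (f x).2, fun x => (f x).1.2, by rw [sup_assoc]; exact hf⟩

end Vale.Agent.P014Y.F.Pa
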