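import Vale.Agent.P014Y.F.Pa.Ps

/-! # P014Y (FRAME), block PAT: three local rows with nonzero determinant -/

set_option linter.all false

open NumberField Matrix Filter PowerSeries
open scoped Classical

noncomputable section

namespace Vale.Agent.P014Y.F.Pa

open Vale.Agent.P022 Vale.Agent.P014U
open Vale.Agent.P022D.W (dec)
open Vale.Agent.P022E.GW (Ov)
open X4F.Pat (U Sy Im)

namespace Bt

variable [Pp] (e : Crv) {l : ℕ} {P : Ideal (𝓞 Qb)}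

/-- no local invariants -/
theorem fix0 (o : Ov l P) {v : Fin 2 → ℤ_[pp]} (h : ∀ g ∈ dec P, (e.r g - 1) *ᵥ v = 0) : v = 0 :=
  En.noi _ o v fun g hg => by
    have k := h g hg
    rwa [sub_mulVec, one_mulVec, sub_eq_zero] at k

theorem rows (o : Ov l P) : ∃ g ∈ dec P, ∃ g' ∈ dec P, ∃ i i',
    (e.r g - 1) i 0 * (e.r g' - 1) i' 1 - (e.r g - 1) i 1 * (e.r g' - 1) i' 0 ≠ 0 := by
  by_contra c
  push Not at c
  have z : ∀ g ∈ dec P, ∀ i, (e.r g - 1) i 0 = 0 := fun g hg i => by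
    have := fix0 e o (v := ![-(e.r g - 1) i 1, (e.r g - 1) i 0]) fun g' hg' => funext fun i' => by
      simp only [mulVec, dotProduct, Fin.sum_univ_two, cons_val_zero, cons_val_one, Pi.zero_apply]
      linear_combination c g hg g' hg' i i'
    exact congrFun this 1
  have := fix0 e o (v := ![1, 0]) fun g hg => funext fun i => by
    simp only [mulVec, dotProduct, Fin.sum_univ_two, cons_val_zero, cons_val_one, Pi.zero_apply,
      z g hg i, mul_zero, zero_mul, add_zero]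
  exact one_ne_zero (congrFun this 0)

theorem ex_c {j : ℕ} (x : Rj j) : ∃ a, x - cj j a ∈ Ideal.span {mj j X} := by
  obtain ⟨f, rfl⟩ := Ideal.Quotient.mk_surjective x
  refine ⟨constantCoeff f, Ideal.mem_span_singleton.2 ?_⟩
  rw [cj, RingHom.comp_apply, ← map_sub]
  exact map_dvd _ (X_dvd_iff.2 (by simp))

variable {e} (b : Fld e)

/-- the matrix at one level -/
def Mj {j : ℕ} (Ψ : GQ → Rj j) (ε : GQ → Fin 2 → Rj j) (g : Fin 3 → GQ) (is : Fin 3 → Fin 2) :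
    Matrix (Fin 3) (Fin 3) (Rj j) :=
  .of fun i => Fin.snoc (α := fun _ => Rj j) ((b.aa j Ψ (g i) - 1) (is i)) (ε (g i) (is i))

theorem lev {j : ℕ} {Ψ : GQ → Rj j} (ε : GQ → Fin 2 → Rj j)
    (hX : ∀ g ∈ b.Γ, Ψ g - 1 ∈ Ideal.span {mj j X}) {g₀ g₁ : GQ} (h0 : g₀ ∈ b.Γ) (h1 : g₁ ∈ b.Γ)
    (i₀ i₁ : Fin 2) : ∃ v, ∀ g ∈ b.Γ, ∀ i, (Mj b Ψ ε ![g₀, g₁, g] ![i₀, i₁, i]).det -
      (cj j ((e.r g₀ - 1) i₀ 0 * (e.r g₁ - 1) i₁ 1 - (e.r g₀ - 1) i₀ 1 * (e.r g₁ - 1) i₁ 0) *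
        ε g i - cj j (((e.r g - 1) *ᵥ v) i)) ∈ Ideal.span {mj j X} := by
  obtain ⟨x, hx⟩ := ex_c (ε g₀ i₀)
  obtain ⟨y, hy⟩ := ex_c (ε g₁ i₁)
  refine ⟨![x * (e.r g₁ - 1) i₁ 1 - (e.r g₀ - 1) i₀ 1 * y,
    (e.r g₀ - 1) i₀ 0 * y - x * (e.r g₁ - 1) i₁ 0], fun g hg i => ?_⟩
  generalize Ideal.span {mj j X} = I at *
  have a : ∀ g ∈ b.Γ, ∀ i k, Ideal.Quotient.mk I ((b.aa j Ψ g - 1) i k) =
      Ideal.Quotient.mk I (cj j ((e.r g - 1) i k)) := fun g hg i k => by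
    rw [Ideal.Quotient.eq]
    have : (b.aa j Ψ g - 1) i k - cj j ((e.r g - 1) i k) = (Ψ g - 1) * cj j (e.r g i k) := by
      simp only [Fld.aa, Matrix.sub_apply, Matrix.smul_apply, map_apply, smul_eq_mul, map_sub,
        one_apply]
      split_ifs <;> simp only [map_one, map_zero] <;> ring
    rw [this]
    exact I.mul_mem_right _ (hX g hg)
  rw [← Ideal.Quotient.eq] at hx hy ⊢
  have s : ∀ (f : Fin 2 → Rj j) (t : Rj j), Fin.snoc (α := fun _ => Rj j) f t 0 = f 0 ∧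
    Fin.snoc (α := fun _ => Rj j) f t 1 = f 1 ∧ Fin.snoc (α := fun _ => Rj j) f t 2 = t :=
    fun _ _ => ⟨rfl, rfl, rfl⟩
  simp only [Mj, det_fin_three, of_apply, (s _ _).1, (s _ _).2.1, (s _ _).2.2, cons_val_zero,
    cons_val_one, cons_val, map_sub, map_add, map_mul, a _ h0, a _ h1, a _ hg, hx, hy, mulVec,
    dotProduct, Fin.sum_univ_two]
  ring

end Bt

variable [Pp]

open Bt in
/-- **three local rows with nonzero determinant** -/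
theorem bet (e : Crv) (b : Fld e) (c₀ : ℕ) (Ψ : ∀ j, GQ → Rj (j + 1))
    (ε : ∀ j, GQ → Fin 2 → Rj (j + 1))
    (hX : ∀ᶠ j in U, ∀ g ∈ b.Γ, Ψ j g - 1 ∈ Ideal.span {mj (j + 1) X})
    (hf : ∀ᶠ j in U, ∀ k ≤ j + 1, ∀ (s : ℤ_[pp]) (v : Fin 2 → ℤ_[pp]),
      (∀ g ∈ dec (e.P pp), ∀ i, cj (j + 1) s * ε j g i - cj (j + 1) (((e.r g - 1) *ᵥ v) i) ∈
        Ideal.span {(pp : Rj (j + 1)) ^ k, mj (j + 1) X}) → (pp : ℤ_[pp]) ^ k ∣ (pp : ℤ_[pp]) ^ c₀ * s) :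
    ∃ (gs : Fin 3 → ℕ → b.Γ) (is : Fin 3 → Fin 2), (∀ i j, (gs i j : GQ) ∈ dec (e.P pp)) ∧
      det (Matrix.of fun i => Fin.snoc (α := fun _ => La)
        ((um (fun j => b.aa _ (Ψ j) (gs i j)) - 1) (is i)) (ur fun j => ε j (gs i j) (is i))) ≠ 0 := by
  have le := b.le pp e.pm
  obtain ⟨g₀, h0, g₁, h1, i₀, i₁, hD⟩ := rows e (e.ov pp e.pm)
  generalize hd : (e.r g₀ - 1) i₀ 0 * (e.r g₁ - 1) i₁ 1 -
    (e.r g₀ - 1) i₀ 1 * (e.r g₁ - 1) i₁ 0 = D at hD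
  obtain ⟨k, hk⟩ : ∃ k, ¬ (pp : ℤ_[pp]) ^ (k + 1) ∣ (pp : ℤ_[pp]) ^ c₀ * D := by
    by_contra c
    push Not at c
    refine mul_ne_zero (pow_ne_zero c₀ (Nat.cast_ne_zero.2 pp_ne)) hD (C_injective ((X4F.Pat.Im_ext fun k => ?_).trans
      (map_zero _).symm))
    refine Ideal.mem_of_dvd _ ?_ (X4F.Pat.two_Im k)
    rw [X4F.Pat.two_C]
    exact map_dvd _ ((pow_dvd_pow _ k.le_succ).trans (c k))
  have ex : ∀ᶠ j in U, ∃ x : dec (e.P pp) × Fin 2, (Mj b (Ψ j) (ε j) ![g₀, g₁, x.1] ![i₀, i₁, x.2]).det ∉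
      Ideal.span {(pp : Rj (j + 1)) ^ (k + 1), mj (j + 1) X} :=
    (hX.and (hf.and (X4F.Pat.U_ge k))).mono fun j ⟨a, f, m⟩ => by
      by_contra c
      push Not at c
      obtain ⟨v, hv⟩ := lev b (ε j) a (le h0) (le h1) i₀ i₁
      rw [hd] at hv
      refine hk (f _ (Nat.succ_le_succ m) D v fun g hg i => ?_)
      have := Ideal.sub_mem _ (c (⟨g, hg⟩, i))
        (Ideal.span_mono (Set.subset_insert _ _) (hv g (le hg) i))
      rwa [sub_sub_cancel] at this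
  let x : ℕ → dec (e.P pp) × Fin 2 := fun j => if h : _ then Exists.choose
    (p := fun x : dec (e.P pp) × Fin 2 => (Mj b (Ψ j) (ε j) ![g₀, g₁, x.1] ![i₀, i₁, x.2]).det ∉
      Ideal.span {(pp : Rj (j + 1)) ^ (k + 1), mj (j + 1) X}) h else (1, 0)
  obtain ⟨i, hi⟩ := X4F.Pat.U_fin fun j => (x j).2
  let gs : Fin 3 → ℕ → b.Γ := ![fun _ => ⟨g₀, le h0⟩, fun _ => ⟨g₁, le h1⟩,
    fun j => ⟨(x j).1, le (x j).1.2⟩]
  have eg : ∀ j, (fun i => (gs i j : GQ)) = ![g₀, g₁, (x j).1] := fun j => funext fun i => by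
    fin_cases i <;> rfl
  refine ⟨gs, ![i₀, i₁, i], fun i j => ?_, fun z => ?_⟩
  · fin_cases i
    exacts [h0, h1, (x j).1.2]
  have q : um (fun j => Mj b (Ψ j) (ε j) (fun i => gs i j) ![i₀, i₁, i]) =
      Matrix.of fun i' => Fin.snoc (α := fun _ => La)
        ((um (fun j => b.aa _ (Ψ j) (gs i' j)) - 1) (![i₀, i₁, i] i'))
        (ur fun j => ε j (gs i' j) (![i₀, i₁, i] i')) := by
    have u : ∀ A : ∀ j, M2 (Rj (j + 1)), um A - 1 = um fun j => A j - 1 := fun A => by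
      rw [← Sy.succ.um_one]
      exact (Sy.succ.um_sub _ _).symm
    simp only [u]
    refine Matrix.ext fun i' t => ?_
    fin_cases t <;> rfl
  rw [← q, Sy.succ.um_det] at z
  obtain ⟨j, k1, k2, k3⟩ := (ex.and (hi.and (Sy.succ.ur_spec
    (fun j => (Mj b (Ψ j) (ε j) (fun i => gs i j) ![i₀, i₁, i]).det) (k + 1)))).exists
  have k4 : (Mj b (Ψ j) (ε j) ![g₀, g₁, (x j).1] ![i₀, i₁, (x j).2]).det ∉
      Ideal.span {(pp : Rj (j + 1)) ^ (k + 1), mj (j + 1) X} := by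
    simp only [x, dif_pos k1]
    exact k1.choose_spec
  obtain ⟨y, hy⟩ := Ideal.Quotient.mk_surjective
    (Mj b (Ψ j) (ε j) (fun i => gs i j) ![i₀, i₁, i]).det
  have := k3 y hy
  rw [z, sub_zero, Im, Ideal.mem_span_pair] at this
  obtain ⟨s, t, rfl⟩ := this
  refine k4 ?_
  rw [k2, ← eg, ← hy, Ideal.mem_span_pair]
  exact ⟨mj _ s, mj _ (t * X ^ k), by simp only [map_add, map_mul, map_pow, map_natCast]; ring⟩

end Vale.Agent.P014Y.F.Pa
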