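import Vale.Agent.P014Y.F.Pa.Sq0
import Vale.Agent.P014Y.F.Pa.Bet

/-! # P014Y, block F, row SQX: the perturbed tower exists -/

set_option linter.all false

open NumberField Matrix Filter PowerSeries Submodule Set
open scoped Classical Pointwise

noncomputable section

namespace Vale.Agent.P014Y.F.Pa

open Vale.Agent.P022 Vale.Agent.P004K Vale.Agent.P014U
open Vale.Agent.P022D.W (dec)
open X4F.Pat (U Sy Im U_of U_ge U_fin U_bdd U_ch)

open Sx

variable [Pp] [Om]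

/-- **the perturbed tower exists** -/
theorem sqx (r1 : RC1) (r2 : RC2) (h1 : ES) (h2 : PE) (h3 : DPL) (h4 : CNT) (h5 : SEP) : SQX := by
  intro e b m B J₀ l c χ tw up hl
  obtain ⟨k, m', k0, pe⟩ := h2 e b m
  obtain ⟨c₀, es⟩ := h1 e b
  choose ε es using fun j => es (j + 1) j.succ_pos
  obtain ⟨g, i, gv, β0⟩ := bet e b c₀ (fun j => ps (j + 1) (χ j) 0)
    (fun j => ε j (ps (j + 1) (χ j) 0 (b.φ pp))) (.of_forall fun j g _ => ps_X _ _ g)
    (tw.mono fun j t => let ⟨_, _, _, a⟩ := es j _ _ (chr0 t); a.free fun g _ => ps_X _ _ g)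
  have tw' := tw.mono fun j t => tw_mono (le_max_left m m') t
  obtain ⟨y, sep⟩ := h5 e b _ k c χ _ k0 β0 tw'
  obtain ⟨x, hx⟩ := U_ch (α := fun _ => ℕ × (GQ → ℕ))
    (P := fun j x => b.Pe (max m m') k y (2 * (j + 1)) (c j) (χ j) x.1 x.2) ((tw.and (U_ge m')).mono fun j a =>
    let ⟨q, χ', p⟩ := pe y _ _ _ (by omega) a.1; ⟨(q, χ'), pe_mono (le_max_right m m') p⟩)
  have chr := (tw.and hx).mono fun j a => chr1 r1 a.1 a.2
  have p2 := P022D.W.phi_mem pp_prime (e.ov pp e.pm).2.1 (b.ch.frb pp e.pm)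
  obtain ⟨z, hz⟩ := U_ch (α := fun j => (_ → GQ → Fin 2 → Rj (j + 1)) × (_ → Rj (j + 1)) ×
      (_ → e.σ → Fin 2 → Rj (j + 1))) (P := fun j z => b.Es c₀ (j + 1) (c j * (x j).1)
      (ps (j + 1) (χ j) (x j).2) (ε j (ps (j + 1) (χ j) 0 (b.φ pp))) z.1 z.2.1 z.2.2)
    ((chr.and hx).mono fun j a => let ⟨κ, t, μ, p⟩ := es j _ _ a.1
      ⟨(κ, t, μ), ps_dec r1 r2 a.2 p2 ▸ p⟩)
  obtain ⟨v, hv⟩ := U_ch (hx.mono fun j a => a.xq)
  obtain ⟨v, -, ev⟩ := U_bdd v (hv.mono fun j a => a.1.le)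
  replace hv := (hv.and ev).mono fun j a => a.2 ▸ a.1.2
  have big : ∀ n, ∀ᶠ j in U, n < pp ^ (2 * (j + 1)) := fun n => (U_ge n).mono fun j a =>
    lt_of_le_of_lt (by omega) (Nat.lt_pow_self one_lt)
  set J := max J₀ (B + 4 * pp ^ v + 1) with hJ
  have hJ' : B + 4 * pp ^ v < J := Nat.lt_of_succ_le (le_max_right _ _)
  have cnt := (tw.and (hv.and ((big J).and (up J)))).mono fun j a =>
    h4 e b _ _ _ _ _ v B J J₀ a.1 a.2.1 a.2.2.1.le (le_max_left _ _) hJ' a.2.2.2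
  refine ⟨⟨max m m', k, c₀, B + 4 * pp ^ v, J, l + 2 * pp ^ v, y, c, χ, fun j => (x j).1,
    fun j => (x j).2, _, fun j => (z j).1, fun j => (z j).2.1, fun j => (z j).2.2, tw', hx, chr, hz,
    ?_, hJ', cnt.mono fun j a => a.2, g, i, gv, _, ?_, β0, sep _ _ hx chr⟩, 2 * pp ^ v, rfl,
    cnt.mono fun j a => ?_⟩
  · filter_upwards [hz, tw, hv, hl, big (l + 2 * pp ^ v), U_ge (l + 2 * pp ^ v)] with j a t s u w w'
    exact a.an (χ j) (fun g _ => ps_two _ _ _ g) _ (Nat.lt_succ_of_le w')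
      (h3 e b _ _ _ _ _ v l t s w u)
  · refine congrArg det (congrArg Matrix.of (funext fun a => ?_))
    rw [show um (fun j => b.aa (j + 1) (ps (j + 1) (χ j) 0) (g a j)) =
      um (fun j => b.aa (j + 1) (ps (j + 1) (χ j) (x j).2) (g a j)) from
      Sy.succ.um_ae (hx.mono fun j p => congrArg (· • _) (ps_dec r1 r2 p (gv a j)).symm)]
  · rw [← mul_assoc]
    exact a.1

end Vale.Agent.P014Y.F.Pa
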