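import Vale.Agent.P014Y.F.Pa.St
import Vale.Agent.P014Y.F.Pa.Pw
import Vale.Agent.P014Y.F.Pt.Kd
import Vale.Agent.P004F.Pa.Twv

/-! # P014Y, block F, PAT, row TWV: local vanishing at the primes of the conductor
(port of P004F; helper33) -/

set_option linter.all false

open NumberField Matrix
open scoped Classical

noncomputable section

namespace Vale.Agent.P014Y.F.Pa

open Vale.Agent.P022 Vale.Agent.P004K Vale.Agent.P014U
open Vale.Agent.P027M.S (Inert)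
open Vale.Agent.P022D.W (dec inP_le_dec conj_inP phi_mem exists_phi)
open Vale.Agent.P022E.GW (Ov Fb)
open Vale.Agent.P022.H443 (inP)
open Vale.Agent.P022K.CH.Loc (WMod chi_data exists_tau)
open P004F.Pa.Tv (Lc pw com fb_sq wd_sq)

variable [Pp]

namespace Tv

variable {q : ℕ} {P : Ideal (𝓞 Qb)}

variable {e : Crv} {b : Fld e} {j c : ℕ} {Ψ : GQ → Rj j}

theorem lc (H : b.Chr j c Ψ) (o : Ov q P) (out : q ∉ e.S) (cop : ¬ q ∣ b.δ') {M : Type}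
    [AddCommGroup M] [Module (Rj j) M] {T : Finset ℕ} {x : GQ → Fin 2 → M}
    (hx : Cc b.Γ T (b.aa j Ψ) x) : ∃ U : Subgroup GQ, U.Normal ∧ IsOpen (U : Set GQ) ∧
      Lc (b.Γ ⊓ dec P) (inP P) (WMod q U) (b.aa j Ψ) Ψ x := by
  obtain ⟨W, hW, w⟩ := hx.lc
  obtain ⟨U, hU, le⟩ := P022K.G2.ex_lv (O := W ∩ Hc b.j c) (hW.inter
    ((H916.isOpen_GK b.j).inter (stabilizer_isOpen_of_isIntegral _))) ⟨one_mem _, one_mem _⟩
  have h2 := e.ne_two out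
  have l : inP P ≤ b.Γ ⊓ dec P := fun g hg => ⟨b.inert_mem o h2 cop hg, inP_le_dec hg⟩
  have one := H.ker 1 (one_mem _)
  have mul : ∀ g ∈ b.Γ ⊓ dec P, ∀ h ∈ b.Γ ⊓ dec P, Ψ (g * h) = Ψ g * Ψ h :=
    fun g hg h hh => H.mul g hg.1 h hh.1
  have coc : ∀ g ∈ b.Γ ⊓ dec P, ∀ h ∈ b.Γ ⊓ dec P, x (g * h) = x g + P004F.Pr.ac (b.aa j Ψ g) (x h) :=
    fun g hg h hh => hx.coc g hg.1 h hh.1
  have sc : ∀ g ∈ inP P, b.aa j Ψ g = Ψ g • 1 := fun g hg => by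
    simp [Fld.aa, e.r_inert o out hg]
  have cp : ∀ m n : ℕ, (q ^ m).Coprime (pp ^ n) := fun m n =>
    ((Nat.coprime_primes o.1 pp_prime).2 (e.ne_pp out)).pow _ _
  refine ⟨U, hU.nrm, hU.opn, l, one, mul, fun g hg h hh => Sq.aa_mul H hg.1 hh.1, sc, coc, ?_⟩
  rintro g hg ⟨m, hm⟩
  obtain ⟨p1, p2⟩ := pw l one mul sc coc hg (q ^ m)
  have k : Ψ g = 1 := (pow_eq_one_iff_of_coprime (cp m (2 * j))).1
    ⟨p1.symm.trans (H.ker _ (le hm).2), H.ord g (l hg).1⟩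
  have u : IsUnit ((q ^ m : ℕ) : Rj j) := by
    have := (cp m j).cast (R := Rj j)
    rwa [Nat.cast_pow pp, two_pow, isCoprime_zero_right] at this
  rw [w _ (le hm).1, k] at p2
  simp only [one_pow, Finset.sum_const, Finset.card_range, nsmul_eq_mul, mul_one] at p2
  exact ⟨k, (u.smul_eq_zero).1 p2.symm⟩

end Tv

open Tv

/-- **row TWV** -/
theorem twv : TWV := fun e b m => ⟨3 * m, fun j c Ψ q P H G o => by
  refine ⟨fun g hg M _ _ T x hx => ?_, fun 𝔟 h𝔟 => ?_⟩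
  · obtain ⟨U, n, hU, L⟩ := lc H o G.out G.cop hx
    refine ⟨_, fun h hh => L.fst hg hh (fun h hh => ?_) fun k hk => P004F.En.wd_comm o hg hk U n hU⟩
    rw [show g * h * (h * g)⁻¹ = g * (h * g⁻¹ * h⁻¹) by group]
    exact mul_mem hg (conj_inP hh.2 (inv_mem hg))
  obtain ⟨φ, f⟩ := exists_phi o.1 o.2.1 o.2.2
  obtain ⟨τ, t, gen⟩ := exists_tau o
  have md := phi_mem o.1 o.2.1 f
  have hΦ : φ * φ ∈ b.Γ ⊓ dec P := ⟨by
    by_cases k : φ ∈ b.Γ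
    · exact mul_mem k k
    · exact b.mul_out k k, mul_mem md md⟩
  have hτ : τ ∈ b.Γ ⊓ dec P := ⟨b.inert_mem o (e.ne_two G.out) G.cop t, inP_le_dec t⟩
  have d : (e.r (φ * φ) - 1).det = ((((q : ℤ) + 1) ^ 2 - e.a q ^ 2 : ℤ) : ℤ_[pp]) := by
    have h1 : (e.r φ).trace = e.a q := (e.bad q o.1 G.out).2.2 φ ⟨P, o.2.1, o.2.2, f⟩
    have h2 : (e.r φ).det = q := e.det_fb o (e.ne_pp G.out) f
    push_cast
    rw [← h1, ← h2, map_mul]
    simp [det_fin_two, trace_fin_two, mul_apply, Fin.sum_univ_two]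
    ring
  obtain ⟨s, hs⟩ : (e.r (φ * φ) - 1).det ∣ (pp : ℤ_[pp]) ^ m :=
    (ValuationRing.dvd_total _ _).resolve_right fun k => G.gq (by
      rw [d] at k
      exact (PadicInt.pow_p_dvd_int_iff (p := pp) m _).1 k)
  have q1 : ((q ^ 2 : ℕ) : Rj j) = 1 := by
    obtain ⟨k, ⟨-, hk⟩, z, rfl⟩ := G.typ
    have z0 : ((pp ^ j * z : ℕ) : Rj j) = 0 := by push_cast; rw [two_pow, zero_mul]
    rcases hk with ⟨-, hk⟩ | ⟨-, hk⟩
    · rw [hk] at z0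
      push_cast at z0 ⊢
      linear_combination (q - 1 : Rj j) * z0
    · rw [← hk, Nat.cast_pow, Nat.cast_add, z0]; simp
  have A : b.aa j Ψ (φ * φ) = Ψ (φ * φ) • (e.r (φ * φ)).map (cj j) := rfl
  have k3 : ((e.r (φ * φ)).map (cj j) - 1).det * cj j s = pp ^ m := by
    have := congrArg (cj j) hs
    rw [map_pow, map_natCast, map_mul, RingHom.map_det, map_sub, map_one] at this
    exact this.symm
  refine ⟨_, cong (h𝔟 _ hΦ) (h𝔟 τ hτ) q1 k3, fun M _ _ T x hx => ?_⟩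
  obtain ⟨U, n, hU, L⟩ := lc H o G.out G.cop hx
  rw [← A]
  exact L.snd hΦ t (mul_mem (conj_inP hΦ.2 t) (inv_mem (pow_mem t _)))
    (wd_sq o f t U hU) (gen U n hU) (fun h hh => com (fb_sq f) hh.2) _ _⟩

end Vale.Agent.P014Y.F.Pa
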