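import Vale.Agent.P014Y.F.Pa.Ps

/-! # P014Y, block PAT, row GLB: the group of sequences -/

set_option linter.all false

open NumberField Matrix Filter PowerSeries Submodule Set
open scoped Classical

noncomputable section

namespace Vale.Agent.P014Y.F.Pa

open Vale.Agent.P022 Vale.Agent.P004K Vale.Agent.P014U
open Vale.Agent.P027M.S (Inert)
open Vale.Agent.P022D.W (dec)
open Vale.Agent.P022E.GW (Ov Fb)
open X4F.Pat (U Sy)
open B0

namespace Gb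

variable [Pp] {e : Crv} {b : Fld e}

/-! ### one level -/

/-- the representation modulo `p ^ n` -/
def rq (e : Crv) (n : ℕ) : GQ →* M2 (ℤ_[pp] ⧸ Ideal.span {(pp : ℤ_[pp]) ^ n}) :=
  (RingHom.mapMatrix (Ideal.Quotient.mk _)).toMonoidHom.comp e.r

theorem rq_one {n : ℕ} {g : GQ} : rq e n g = 1 ↔ ∀ i i', (pp : ℤ_[pp]) ^ n ∣ (e.r g - 1) i i' := by
  rw [← sub_eq_zero, ← map_one (RingHom.mapMatrix (Ideal.Quotient.mk _)),
    show rq e n g = RingHom.mapMatrix (Ideal.Quotient.mk _) (e.r g) from rfl, ← map_sub,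
    ← Matrix.ext_iff]
  exact forall₂_congr fun i i' => Ideal.Quotient.eq_zero_iff_mem.trans Ideal.mem_span_singleton

theorem rq_of {n : ℕ} {g : GQ} (h : e.r g = 1) : rq e n g = 1 :=
  (congrArg (RingHom.mapMatrix (Ideal.Quotient.mk _)) h).trans (map_one _)

variable {j c n : ℕ} {Ψ : GQ → Rj j} {g h : GQ}

/-- the exact conditions -/
def Hl (e : Crv) (Ψ : GQ → Rj j) (n : ℕ) (h : GQ) : Prop :=
  rq e n h = 1 ∧ Ψ h = 1

section
variable (k : b.Chr j c Ψ)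
include k

theorem ps_one : Ψ 1 = 1 := k.ker 1 (one_mem _)

theorem ps_inv (m : g ∈ b.Γ) : Ψ g * Ψ g⁻¹ = 1 := by
  rw [← k.mul g m _ (inv_mem m), mul_inv_cancel, ps_one k]

theorem ps_cj (r1 : RC1) (m : g ∈ b.Γ) : Ψ (b.c * g * b.c) = Ψ g⁻¹ := by
  have a := (r1 _ _ b.iq c (Nat.pos_of_ne_zero k.sq.ne_zero)).2.2.2.2.1 _ (c_out b) g m
  rw [c_inv] at a
  rw [← mul_one (Ψ _), ← ps_inv k m, ← mul_assoc, ← k.mul _ (cj_mem m) g m, k.ker _ a, one_mul]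

theorem ps_conj (m : g ∈ b.Γ) (m' : h ∈ b.Γ) : Ψ (g * h * g⁻¹) = Ψ h := by
  rw [k.mul _ (mul_mem m m') _ (inv_mem m), k.mul _ m _ m', mul_right_comm, ps_inv k m, one_mul]

theorem Hl.one : Hl e Ψ n 1 := ⟨map_one _, ps_one k⟩

theorem Hl.mul (m : g ∈ b.Γ) (m' : h ∈ b.Γ) (x : Hl e Ψ n g) (y : Hl e Ψ n h) :
    Hl e Ψ n (g * h) :=
  ⟨by rw [map_mul, x.1, y.1, mul_one], by rw [k.mul _ m _ m', x.2, y.2, mul_one]⟩

theorem Hl.inv (m : g ∈ b.Γ) (x : Hl e Ψ n g) : Hl e Ψ n g⁻¹ :=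
  ⟨(rq e n).ker.inv_mem x.1, by simpa [x.2] using ps_inv k m⟩

theorem Hl.conj (m : g ∈ b.Γ) (m' : h ∈ b.Γ) (x : Hl e Ψ n h) : Hl e Ψ n (g * h * g⁻¹) :=
  ⟨(rq e n).normal_ker.conj_mem h x.1 g, (ps_conj k m m').trans x.2⟩

theorem Hl.th (r1 : RC1) (m : h ∈ b.Γ) (x : Hl e Ψ n h) : Hl e Ψ n (b.c * h * b.c) :=
  ⟨by simpa only [c_inv, MonoidHom.mem_ker] using (rq e n).normal_ker.conj_mem h x.1 b.c,
    (ps_cj k r1 m).trans (x.inv k m).2⟩

theorem Hl.comm (m : g ∈ b.Γ) (m' : h ∈ b.Γ) (x : e.r g = 1) : Hl e Ψ n (g * h * g⁻¹ * h⁻¹) := by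
  refine ⟨?_, ?_⟩
  · have := rq_of (n := n) x
    rw [mul_assoc, mul_assoc, ← mul_assoc h]
    exact (rq e n).ker.mul_mem this ((rq e n).normal_ker.conj_mem _ (inv_mem this) h)
  · rw [k.mul _ (Γ_conj b m' g) _ (inv_mem m'), ps_conj k m m', ps_inv k m']

theorem ps_unr (r2 : RC2) {l : ℕ} {P : Ideal (𝓞 Qb)} (o : Ov l P) (hl : l ∈ e.S) (m : g ∈ b.Γ)
    (i : Inert P g) : Ψ g = 1 :=
  k.ker g (unr_hc r2 b.iq (Nat.pos_of_ne_zero k.sq.ne_zero) o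
    (fun d => (k.cop l (Nat.mem_primeFactors.2 ⟨o.1, d, k.sq.ne_zero⟩)).1 hl) m i)

end

/-! ### sequences -/

/-- the conjugation by `c` -/
def th (b : Fld e) : (ℕ → b.Γ) →* (ℕ → b.Γ) where
  toFun g j := ⟨b.c * g j * b.c, cj_mem (g j).2⟩
  map_one' := funext fun j => Subtype.ext (by simp [c_sq])
  map_mul' g h := funext fun j => Subtype.ext (by
    show b.c * (g j * h j) * b.c = b.c * g j * b.c * (b.c * h j * b.c)
    rw [show b.c * g j * b.c * (b.c * h j * b.c) = b.c * g j * (b.c * b.c) * h j * b.c by group, c_sq]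
    group)

theorem th_th (g : ℕ → b.Γ) : th b (th b g) = g := funext fun j => Subtype.ext (by
  show b.c * (b.c * g j * b.c) * b.c = g j
  rw [show b.c * (b.c * g j * b.c) * b.c = b.c * b.c * g j * (b.c * b.c) by group, c_sq]
  group)

variable [Om] (s : Sq b)

theorem hs_iff {h : ℕ → b.Γ} : s.Hs h ↔ ∀ᶠ j in U, Hl e (s.Ψ j) (j + 2) (h j) :=
  eventually_congr (.of_forall fun j => and_congr_left' rq_one.symm)

/-- the subgroup of the exact conditions -/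
def Hg : Subgroup (ℕ → b.Γ) where
  carrier := {h | s.Hs h}
  one_mem' := (hs_iff s).2 (s.chr.mono fun j k => .one k)
  mul_mem' {g h} x y := (hs_iff s).2 ((s.chr.and (((hs_iff s).1 x).and ((hs_iff s).1 y))).mono
    fun j k => k.2.1.mul k.1 (g j).2 (h j).2 k.2.2)
  inv_mem' {g} x := (hs_iff s).2 ((s.chr.and ((hs_iff s).1 x)).mono fun j k => k.2.inv k.1 (g j).2)

theorem mem_H {n : ℕ} (h : ℕ → b.Γ) : h ∈ (s.γ n).H ↔ s.Hs h :=
  SetLike.ext_iff.1 (Subgroup.closure_eq (Hg s)) h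

theorem mem_H' {n : ℕ} {h : ℕ → b.Γ} : h ∈ (s.γ n).H ↔ ∀ᶠ j in U, Hl e (s.Ψ j) (j + 2) (h j) :=
  (mem_H s h).trans (hs_iff s)

theorem nH (n : ℕ) : (s.γ n).H.Normal := ⟨fun h x g => (mem_H' s).2
  ((s.chr.and ((mem_H' s).1 x)).mono fun j k => k.2.conj k.1 (g j).2 (h j).2)⟩

theorem θH (r1 : RC1) (n : ℕ) : ∀ h ∈ (s.γ n).H, th b h ∈ (s.γ n).H := fun h x => (mem_H' s).2
  ((s.chr.and ((mem_H' s).1 x)).mono fun j k => k.2.th k.1 r1 (h j).2)

omit [Om] in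
theorem um_one : um (fun j => (1 : M2 (Rj (j + 1)))) = 1 := Sy.succ.um_one

theorem ρH (n : ℕ) : ∀ h ∈ (s.γ n).H, s.ρ h = 1 := fun h x =>
  (Sy.succ.um_ae (((mem_H s h).1 x).mono fun j k => by
    rw [Fld.aa, k.2, one_smul, ← sub_add_cancel (e.r _) 1, Matrix.map_add _ (map_add _),
      Matrix.map_one _ (map_zero _) (map_one _), add_eq_right]
    exact Matrix.ext fun i i' => cj_dvd ((pow_dvd_pow _ (Nat.le_succ _)).trans (k.1 i i')))).trans
    um_one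

/-- the limit of the characters -/
def ψ (g : ℕ → b.Γ) : La := ur fun j => s.Ψ j (g j)

theorem ψ_inv (g : ℕ → b.Γ) : ψ s g * ψ s g⁻¹ = 1 := by
  rw [ψ, ψ, ← map_mul, ← map_one ur]
  exact Sy.succ.ur_ae (s.chr.mono fun j k => ps_inv k (g j).2)

theorem ψ_th (r1 : RC1) (g : ℕ → b.Γ) : ψ s (th b g) = ψ s g⁻¹ :=
  Sy.succ.ur_ae (s.chr.mono fun j k => ps_cj k r1 (g j).2)

omit [Om] in
theorem ur_mj (a : La) : ur (fun j => mj (j + 1) a) = a := Sy.succ.ur_const a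

theorem ψ_X {g : ℕ → b.Γ} (h : ∀ᶠ j in U, pp ^ (2 * (j + 1)) ∣ s.χ' j (g j)) :
    constantCoeff (ψ s g) = 1 := by
  have := Sy.succ.ur_dvd (a := fun j => mj (j + 1) X) (b := fun j => s.Ψ j (g j) - 1)
    (h.mono fun j k => X_ps0 _ k)
  rw [show Sy.succ.ur (fun j => s.Ψ j (g j) - 1) = ψ s g - 1 from
    (map_sub ur _ 1).trans (by rw [map_one]; rfl), Sy.succ.ur_const, X_dvd_iff, map_sub, map_one,
    sub_eq_zero] at this
  exact this

/-- the representation with constant coefficients -/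
def rc (e : Crv) : GQ →* M2 La := (RingHom.mapMatrix (C : ℤ_[pp] →+* La)).toMonoidHom.comp e.r

omit [Om] in
theorem rc_apply (g : GQ) : rc e g = (e.r g).map C := rfl

/-- the action of a sequence on which the constant data are constant -/
theorem ρ_eq {g : ℕ → b.Γ} {x : GQ} (h : ∀ᶠ j in U, e.r (g j) = e.r x) :
    s.ρ g = ψ s g • rc e x := by
  refine (Sy.succ.um_ae (B := fun j => s.Ψ j (g j) • (rc e x).map (mj (j + 1)))
    (h.mono fun j k => ?_)).trans ?_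
  · rw [Fld.aa, k, rc_apply, Matrix.map_map]; rfl
  · rw [Sy.succ.um_smul, Sy.succ.um_const]; rfl

/-- constant sequences -/
def kk (b : Fld e) : b.Γ →* (ℕ → b.Γ) := Pi.constMonoidHom ℕ _

theorem ρ_kk (g : b.Γ) : s.ρ (kk b g) = ψ s (kk b g) • rc e g :=
  ρ_eq s (.of_forall fun j => rfl)

theorem ρ_th (r1 : RC1) (g : b.Γ) :
    s.ρ (th b (kk b g)) = ψ s (kk b g⁻¹) • (rc e b.c * rc e g * rc e b.c) := by
  have k : ∀ j, (th b (kk b g) j : GQ) = b.c * g * b.c := fun j => rfl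
  rw [ρ_eq s (x := b.c * g * b.c) (.of_forall fun j => by rw [k]), ψ_th s r1,
    map_mul, map_mul, map_inv]

theorem ψ_unr (r2 : RC2) {l : ℕ} {P : Ideal (𝓞 Qb)} (o : Ov l P) (hl : l ∈ e.S) {g : b.Γ}
    (i : Inert P g) : ψ s (kk b g) = 1 :=
  (Sy.succ.ur_ae (s.chr.mono fun j k => ps_unr k r2 o hl g.2 i)).trans (map_one ur)

end Gb

end Vale.Agent.P014Y.F.Pa
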