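import Vale.Agent.P014Y.F.Pa.Glb0
import Vale.Agent.P004F.Pa.Glb

/-! # P014Y, block PAT, row GLB: the global fields and the tame places -/

set_option linter.all false

open NumberField Matrix Filter PowerSeries Submodule Set
open scoped Classical

noncomputable section

namespace Vale.Agent.P014Y.F.Pa

open Vale.Agent.P022 Vale.Agent.P004K Vale.Agent.P014U
open Vale.Agent.P027M.S (Inert)
open Vale.Agent.P022D.W (dec inP_le_dec phi_mem)
open Vale.Agent.P022E.GW (Ov Fb)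
open X4F.Pat (U Sy)
open B0

namespace Gb

export P004F.Pa.Gb (tj perp)

variable [Pp] {e : Crv} {b : Fld e}

theorem rc_one {g : GQ} (h : e.r g = 1) : rc e g = 1 :=
  (congrArg (RingHom.mapMatrix (C : ℤ_[pp] →+* La)) h).trans (map_one _)

section

variable [Om] (s : Sq b)

theorem rc_mem (g : b.Γ) : rc e g ∈ span La (range s.ρ) := by
  have := smul_mem _ (ψ s (kk b g)⁻¹) (subset_span (R := La) (mem_range_self (f := s.ρ) (kk b g)))
  rwa [ρ_kk, smul_smul, mul_comm (ψ s _), ψ_inv, one_smul] at this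

theorem spn (ha : ABS) : ∃ c, ∀ n, c ≤ n → ∀ B, (pp : La) ^ n • B ∈ span La (range s.ρ) := by
  obtain ⟨c, h⟩ := ha e b
  have k : ∀ A ∈ span ℤ_[pp] (e.r '' b.Γ), A.map C ∈ span La (range s.ρ) := fun A hA => by
    induction hA using span_induction with
    | mem _ m => obtain ⟨g, m, rfl⟩ := m; exact rc_mem s ⟨g, m⟩
    | zero => rw [Matrix.map_zero _ (map_zero _)]; exact zero_mem _
    | add _ _ _ _ x y => rw [Matrix.map_add _ (map_add _)]; exact add_mem x y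
    | smul r _ _ x => rw [Matrix.map_smul' _ _ _ (map_mul _)]; exact smul_mem _ _ x
  refine ⟨c, fun n le B => ?_⟩
  obtain ⟨d, rfl⟩ := Nat.exists_eq_add_of_le le
  rw [matrix_eq_sum_single B, Finset.smul_sum]
  refine sum_mem fun i _ => ?_
  rw [Finset.smul_sum]
  refine sum_mem fun j _ => ?_
  have := smul_mem _ ((pp : La) ^ d * B i j) (k _ (h (single i j 1)))
  rw [Matrix.map_smul' _ _ _ (map_mul _), map_single, map_one, ← X4F.Pat.two_C, smul_smul,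
    smul_single] at this
  rwa [smul_single, smul_eq_mul, show (pp : La) ^ (c + d) * B i j = ((pp : La) ^ d * B i j * (pp : La) ^ c) • 1 by
    rw [smul_eq_mul]; ring]

/-- inertia at the extra prime -/
theorem ex_g (r2 : RC2) : ∃ g : ℕ → b.Γ, (∀ᶠ j in U, e.r (g j) = 1) ∧
    ∀ π : La, Prime π → π ∣ ψ s g ^ 2 - 1 → π ∣ (pp : La) * om := by
  obtain ⟨g, h⟩ := X4F.Pat.U_ch (α := fun _ => b.Γ) (P := fun j g => e.r g = 1 ∧
      s.Ψ j g ^ 2 - 1 ∣ mj (j + 1) ((pp : La) ^ s.m * om)) ((s.tw.and s.pe).mono fun j k => by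
    obtain ⟨v, -, q⟩ := k.2.xq
    obtain ⟨P, o⟩ := P004R.Mu.ex_pl q.pr
    obtain ⟨g, i, n⟩ := k.2.ram P o
    have m := q.spl P o (inP_le_dec i)
    refine ⟨⟨g, m⟩, r_inert o k.2.gp.out i, ?_⟩
    have := k.1.ker g (unr_hc r2 b.iq (zero_lt_one.trans k.1.one) o (fun d => q.out
      (Finset.mem_union_right _ (Nat.mem_primeFactors.2 ⟨o.1, d, k.1.sq.ne_zero⟩))) m i)
    rw [Sq.Ψ, ps, map_mul, mj_pow X_Im1 this, one_mul, ← map_pow, ← pow_mul, ← map_one (mj _),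
      ← map_sub]
    exact map_dvd _ (pw_dvd _ _ fun d => n ((cop_two_pow _).symm.dvd_of_dvd_mul_right d)))
  refine ⟨g, h.mono fun j k => k.1, fun π p d => ?_⟩
  have := Sy.succ.ur_dvd (h.mono fun j k => k.2)
  rw [Sy.succ.ur_const, show Sy.succ.ur (fun j => s.Ψ j (g j) ^ 2 - 1) = ψ s g ^ 2 - 1 from
    (map_sub ur _ 1).trans (by rw [map_one]; exact congrArg (· - 1) (map_pow ur _ 2))] at this
  exact (p.dvd_or_dvd (d.trans this)).elim (fun k => (p.dvd_of_dvd_pow k).mul_right _)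
    fun k => k.mul_left _

theorem ρ_sc {x : ℕ → b.Γ} (hx : ∀ᶠ j in U, e.r (x j) = 1) : s.ρ x = ψ s x • 1 := by
  rw [ρ_eq s (x := 1) (hx.mono fun j k => k.trans (map_one _).symm), map_one]

theorem sah (r2 : RC2) (n : ℕ) : ∃ z, ∃ a : La, s.ρ z = a • 1 ∧
    (∀ π : La, Prime π → π ∣ a - 1 → π ∣ (pp : La) * om) ∧ ∀ g, z * g * z⁻¹ * g⁻¹ ∈ (s.γ n).H := by
  obtain ⟨z, h, k⟩ := ex_g s r2
  exact ⟨z, _, ρ_sc s h, fun π p d => k π p (d.trans (sub_one_dvd_pow_sub_one _ 2)), fun g =>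
    (mem_H' s).2 ((s.chr.and h).mono fun j k => .comm k.1 (z j).2 (g j).2 k.2)⟩

theorem gen (r1 : RC1) (r2 : RC2) : ∃ g, ∃ a a' : La, s.ρ g = a • 1 ∧ s.ρ (th b g) = a' • 1 ∧
    ∀ π : La, Prime π → π ∣ a - a' → π ∣ (pp : La) * om := by
  obtain ⟨g, h, k⟩ := ex_g s r2
  refine ⟨g, _, _, ρ_sc s h, ρ_sc s (h.mono fun j k => ?_), fun π p d => k π p ?_⟩
  · show e.r (b.c * g j * b.c) = 1
    rw [map_mul, map_mul, k, mul_one, rr]
  · rw [← ψ_inv s g, ← ψ_th s r1, sq, ← mul_sub]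
    exact d.mul_left _

end

/-! ### the tame strict places -/

/-- the matrices with rows in `N` -/
def Rs (N : Submodule La (Fin 2 → La)) : Submodule La (M2 La) where
  carrier := {M | ∀ i, M i ∈ N}
  add_mem' h k i := N.add_mem (h i) (k i)
  zero_mem' i := N.zero_mem
  smul_mem' c _ h i := N.smul_mem c (h i)

theorem Rs.mul {N : Submodule La (Fin 2 → La)} (E : M2 La) {M : M2 La} (h : M ∈ Rs N) :
    E * M ∈ Rs N := fun i => X4F.Pat.vm_mem h (E i)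

theorem Rs.rows {N : Submodule La (Fin 2 → La)} {M M' : M2 La} (h : M ∈ Rs N) (h' : M' ∈ Rs N) (i) :
    fromRows M M' i ∈ N := i.rec h h'

theorem Rs.au {G : Type} [Group G] (ρ : G →* M2 La) {D : Set G} {g : G} (h : g ∈ D) :
    ρ g - 1 ∈ Rs (Au ρ D) := fun i => subset_span ⟨g, h, i, rfl⟩

theorem um_pow (A : ∀ j, M2 (Rj (j + 1))) (n : ℕ) : um (fun j => A j ^ n) = um A ^ n := by
  induction n with
  | zero => exact um_one
  | succ n ih => simp only [pow_succ]; rw [← ih]; exact Sy.succ.um_mul _ _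

theorem um_Nt (A B : ∀ j, M2 (Rj (j + 1))) (q : ℕ) :
    um (fun j => Nt (A j) (B j) q) = Nt (um A) (um B) q := by
  have k : ∀ A B : ∀ j, M2 (Rj (j + 1)), um (fun j => fromCols (A j) (B j)) = fromCols (um A) (um B) :=
    fun A B => Matrix.ext fun i k => k.rec (fun _ => rfl) fun _ => rfl
  simp only [Nt, k, um, Sy.um_sub, Sy.um_sum, Sy.um_one]
  simp only [← um_pow]

theorem det_rc {g : GQ} {n : ℕ} (h : (e.r g).det = n) : (rc e g).det = n := by
  rw [← map_natCast (C : ℤ_[pp] →+* La), ← h, RingHom.map_det]; rfl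

variable [Om] (s : Sq b)

theorem ρ_tr (r1 : RC1) (g : b.Γ) : (s.ρ (th b (kk b g)))ᵀ * ((rc e b.c)ᵀ * !![0, 1; -1, 0]) =
    (rc e g).det • ((rc e b.c)ᵀ * !![0, 1; -1, 0] * s.ρ (kk b g⁻¹)) := by
  have a : (rc e b.c)ᵀ * (rc e b.c)ᵀ = 1 := by
    rw [← transpose_mul, ← map_mul, c_sq, map_one, transpose_one]
  rw [ρ_th s r1, ρ_kk, transpose_smul, transpose_mul, transpose_mul, smul_mul_assoc,
    mul_smul_comm, smul_comm, mul_assoc, mul_assoc (rc e g)ᵀ, ← mul_assoc (rc e b.c)ᵀ (rc e b.c)ᵀ, a,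
    one_mul, tj (M' := rc e (g⁻¹ : b.Γ)) (by simp [← map_mul]), mul_smul_comm, mul_assoc]

theorem ap (r1 : RC1) (n : ℕ) (x : e.σ) : ∃ E : M2 La, IsUnit E.det ∧
    ∀ i, (((s.γ n).N x)ᵀ * E) i ∈ Au s.ρ ((s.γ n).D x) := by
  have m := σS x
  have h2 := σ2 x
  have o := e.ov _ m
  have f : Fb x (e.P x) (b.φ x) := b.ch.frb _ m
  have t := (e.gn _ m h2).1
  have dφ := phi_mem o.1 o.2.1 f
  let φ : b.Γ := ⟨b.φ x, b.le _ m dφ⟩
  let τ : b.Γ := ⟨e.τ x, b.le _ m (inP_le_dec t)⟩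
  have e0 : (s.γ n).N x = Nt (s.ρ (th b (kk b φ))) (s.ρ (th b (kk b τ))) x := um_Nt _ _ _
  have au : ∀ g : b.Γ, (g : GQ) ∈ dec (e.P x) → s.ρ (kk b g⁻¹) - 1 ∈ Rs (Au s.ρ ((s.γ n).D x)) :=
    fun g hg => Rs.au _ fun j => inv_mem hg
  obtain ⟨E, hE⟩ : ∃ E, E = (rc e b.c)ᵀ * !![0, 1; -1, 0] := ⟨_, rfl⟩
  have e1 : ∀ i : ℕ, (s.ρ (th b (kk b τ)) ^ i)ᵀ * E = E * s.ρ (kk b (τ ^ i)⁻¹) := fun i => by
    rw [← map_pow, ← map_pow, ← map_pow, hE, ρ_tr s r1, det_rc (n := 1)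
      (by simpa using det_in e o h2 (pow_mem (show e.τ x ∈ H443.inP _ from t) i))]
    simp
  have e2 : (s.ρ (th b (kk b φ)))ᵀ * E = ((x : ℕ) : La) • (E * s.ρ (kk b φ⁻¹)) := by
    rw [hE, ρ_tr s r1, det_rc (det_fb e o h2 f)]
  have mτ : ∀ i : ℕ, ((τ ^ i : b.Γ) : GQ) ∈ dec (e.P x) := fun i => pow_mem (inP_le_dec t) i
  refine ⟨E, ?_, ?_⟩
  · rw [hE, det_mul, det_transpose]
    exact (((Group.isUnit _).map (rc e)).map detMonoidHom).mul (by simp)
  · rw [e0, Nt, transpose_fromCols, fromRows_mul]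
    refine Rs.rows ?_ ?_
    · rw [transpose_sub, sub_mul, e1, transpose_one, one_mul, ← neg_sub, ← mul_sub_one]
      exact neg_mem (Rs.mul E (au _ (mτ _)))
    · have : (s.ρ (th b (kk b φ)) - ∑ i ∈ Finset.range x, s.ρ (th b (kk b τ)) ^ i)ᵀ * E =
          ((x : ℕ) : La) • (E * (s.ρ (kk b φ⁻¹) - 1)) -
            ∑ i ∈ Finset.range x, E * (s.ρ (kk b (τ ^ i)⁻¹) - 1) := by
        simp only [transpose_sub, sub_mul, e2, transpose_sum, Finset.sum_mul, e1, mul_sub_one,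
          Finset.sum_sub_distrib, Finset.sum_const, Finset.card_range, smul_sub,
          Nat.cast_smul_eq_nsmul]
        abel
      rw [this]
      exact sub_mem (smul_mem _ _ (Rs.mul E (au _ dφ))) (sum_mem fun i _ => Rs.mul E (au _ (mτ i)))

end Gb

end Vale.Agent.P014Y.F.Pa
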