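import Vale.Agent.P014Y.F.Pa.St
import Vale.Agent.P014Y.F.Pa.P0

/-! # P014Y, block F, PAT: powers of `1 + T` and `1 + p T` -/

set_option linter.all false

open PowerSeries

noncomputable section

namespace Vale.Agent.P014Y.F.Pa

open Vale.Agent.P022 (GQ)
open Vale.Agent.P014U

export Vale.Agent.P014U.X4F.Pa (two_Im1 X_Im1 pow_mem_pow Im_pow mj_pow mj_mod twoX_Im1 rs_X
  dvd_two_pow odd_unit)

variable [Pp] [Om]

theorem po_Im1 : (pp : La) * om ∈ X4F.Pat.Im 1 := Ideal.mul_mem_right _ _ two_Im1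

/-- `(1 + p w) ^ k - 1` is `p ^ (v + 1) w` times a unit -/
theorem pw_dvd (m k : ℕ) (h : ¬ pp ^ m ∣ k) :
    (1 + (pp : La) * om) ^ k - 1 ∣ (pp : La) ^ m * om := B0.pw_dvd om m k h

theorem X_ps (h : om = X) (j : ℕ) (χ χ' : GQ → ℕ) (g : GQ) : mj j X ∣ ps j χ χ' g - 1 := by
  rw [ps, h, ← map_one (mj j), ← map_sub]
  exact map_dvd _ (X_dvd_iff.2 (by simp))

theorem X_ps0 {j : ℕ} (χ : GQ → ℕ) {χ' : GQ → ℕ} {g : GQ} (h : pp ^ (2 * j) ∣ χ' g) :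
    mj j X ∣ ps j χ χ' g - 1 := by
  rw [ps, map_mul, mj_pow po_Im1 h, mul_one, ← map_one (mj j), ← map_sub]
  exact map_dvd _ (X_dvd_iff.2 (by simp))

end Vale.Agent.P014Y.F.Pa
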