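import Vale.Agent.P014Y.F.Pa.Sep0
import Vale.Agent.P014Y.F.Pa.Ps

/-! # P014Y, block PAT, row SEP: the zeros of the local factors are disjoint -/

set_option linter.all false

open NumberField Matrix Filter PowerSeries Topology
open scoped Classical Pointwise

noncomputable section

namespace Vale.Agent.P014Y.F.Pa

open Vale.Agent.P022 Vale.Agent.P004K Vale.Agent.P014U
open Vale.Agent.P027M.S (Inert)
open Vale.Agent.P022D.W (dec)
open Vale.Agent.P022E.GW (Ov Fb)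
open X4F.Pat (U Sy)
open B0

namespace Se

variable [Pp] {e : Crv} {b : Fld e}

theorem r_cj (g : GQ) : e.r (b.c * g * b.c) = e.r b.c * e.r g * e.r b.c := by
  rw [map_mul, map_mul]

theorem un_cj (h1 : UNI) (p : e.σ) : (e.r (b.c * e.τ p * b.c) - 1) ^ 2 = 0 := by
  have : e.r b.c * e.r (e.τ p) * e.r b.c - 1 = e.r b.c * (e.r (e.τ p) - 1) * e.r b.c := by
    rw [mul_sub, sub_mul, mul_one, rr]
  rw [r_cj, this, sq, mul_assoc, mul_assoc, ← mul_assoc (e.r b.c) (e.r b.c * _),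
    ← mul_assoc (e.r b.c) (e.r b.c), rr, one_mul, ← mul_assoc (e.r (e.τ p) - 1), ← sq,
    (h1 e p p.2 _ (στ p)).1, zero_mul, mul_zero]

theorem cj_eq {A B : M2 ℤ_[pp]} (h : e.r b.c * A * e.r b.c = B) : A = e.r b.c * B * e.r b.c := by
  rw [← h, ← mul_assoc, ← mul_assoc, rr, one_mul, mul_assoc, rr, mul_one]

theorem ns_cj (h1 : UNI) (h2 : NSC) (p : e.σ) (h : e.r (b.c * e.τ p * b.c) = 1) (s : ℤ_[pp]) :
    e.r (b.c * b.φ p * b.c) ≠ s • 1 := fun k => by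
  rw [r_cj] at h k
  have a := cj_eq h
  have a' := cj_eq k
  rw [mul_one, rr] at a
  rw [mul_smul_comm, smul_mul_assoc, mul_one, rr] at a'
  exact h2 e p _ _ (σo p) (σ2 p) (σf b p) (fun g hg => (h1 e p p.2 g hg).2 a) s a'

theorem um_aa (Ψ : ∀ j, GQ → Rj (j + 1)) (g : GQ) :
    um (fun j => b.aa (j + 1) (Ψ j) g) = ur (fun j => Ψ j g) • (e.r g).map C := by
  rw [← Sy.succ.um_const ((e.r g).map C), ← Sy.succ.um_smul]
  rfl

end Se

open Se

variable [Pp] [Om]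

/-- **the row SEP** -/
theorem sep (r1 : RC1) (r2 : RC2) (h1 : UNI) (h2 : NSC) : SEP := by
  intro e b m k c χ β hk β0 tw
  by_cases ho : ¬ ∃ o : La, Prime o ∧ ¬ o ∣ (pp : La) ∧ ¬ o ∣ om
  · exact ⟨0, fun _ _ _ _ π a a' a'' => absurd ⟨π, a, a', a''⟩ ho⟩
  obtain ⟨o, o1, o2, o3⟩ := not_not.1 ho
  let A : ℕ → M2 La := fun p => (e.r (b.c * b.φ p * b.c)).map C
  let V : ℕ → M2 La := fun p => (e.r (b.c * e.τ p * b.c)).map C
  let ξ : ℕ → La := fun p => ur fun j => mj (j + 1) ((1 + X) ^ χ j (b.c * b.φ p * b.c))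
  have hV : ∀ p : e.σ, (V p - 1) ^ 2 = 0 := fun p => by
    have := congrArg (C : ℤ_[pp] →+* La).mapMatrix (un_cj (b := b) h1 p)
    rwa [map_pow, map_sub, map_one, map_zero] at this
  have pu : ∀ p : e.σ, IsUnit ((p : ℕ) : La) := fun p => X4F.Pat.rs_unit.2 (by
    rw [map_natCast, Ne, ZMod.natCast_eq_zero_iff]; exact σnd p)
  have p0 : ∀ p : e.σ, ((p : ℕ) : ℤ_[pp]) ≠ 0 := fun p => Nat.cast_ne_zero.2 (σo p).1.ne_zero
  obtain ⟨y, -, hy⟩ := sel (fun p y => (ξ p • A p - (1 + (pp : La) * om : La) ^ (k * y) •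
    ∑ i ∈ Finset.range p, V p ^ i).det) e.σ β0 o1 o2 o3 fun x hx π a a' a'' =>
      fin_bad a a' a'' hk _ _ _ (un_sum (hV ⟨x, hx⟩) (pu ⟨x, hx⟩))
  refine ⟨y, fun q χ' pe _ π hπ n2 hX => ?_⟩
  let ψ : ℕ → La := fun p => ur fun j => ps (j + 1) (χ j) (χ' j) (b.c * b.φ p * b.c)
  have ξu : ∀ p, IsUnit (ξ p) := fun p => by
    have := Sy.succ.ur_dvd (a := fun j => mj (j + 1) X)
      (b := fun j => mj (j + 1) ((1 + X) ^ χ j (b.c * b.φ p * b.c)) - 1) (.of_forall fun j => by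
        rw [← map_one (mj _), ← map_sub]
        exact map_dvd _ (X_dvd_iff.2 (by simp)))
    rw [show Sy.succ.ur (fun j => mj (j + 1) ((1 + X) ^ χ j (b.c * b.φ p * b.c)) - 1) = ξ p - 1 from
      (map_sub ur _ 1).trans (by rw [map_one]), Sy.succ.ur_const, X_dvd_iff, map_sub, map_one,
      sub_eq_zero] at this
    exact isUnit_iff_constantCoeff.2 (this ▸ isUnit_one)
  have ci : b.c⁻¹ = b.c := c_inv b
  have zm : ∀ {n a : ℕ}, (a : ZMod (pp ^ n)) = 0 → pp ^ n ∣ a := fun h => (ZMod.natCast_eq_zero_iff _ _).1 h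
  have hψ : ∀ p : e.σ, ψ p * (1 + (pp : La) * om) ^ (k * y p) = ξ p := fun p => by
    rw [← Sy.succ.ur_const ((1 + (pp : La) * om : La) ^ (k * y p)), ← map_mul]
    refine Sy.succ.ur_ae (pe.mono fun j h => ?_)
    obtain ⟨v, -, xq⟩ := h.xq
    have := (dh h.toAd).cj_out r1 b.iq xq.pr.pos (c_out b) (φ_mem b p)
    rw [ci, ← add_eq_zero_iff_eq_neg, (ZMod.natCast_eq_natCast_iff _ _ _).2 (h.odd p (σS p) (σ2 p)),
      ← Nat.cast_add] at this
    show mj _ _ * mj _ _ = mj _ _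
    rw [← map_mul, mul_assoc, ← pow_add, map_mul, mj_pow po_Im1 (zm this), mul_one]
  have hN : ∀ p : e.σ, (um fun j => Nl b (ps (j + 1) (χ j) (χ' j)) p) = Nt (ψ p • A p) (V p) p := fun p => by
    have one : ur (fun j => ps (j + 1) (χ j) (χ' j) (b.c * e.τ p * b.c)) = 1 := by
      rw [← map_one ur]
      refine Sy.succ.ur_ae ((tw.and pe).mono fun j ⟨t, h⟩ => ?_)
      obtain ⟨v, -, xq⟩ := h.xq
      have z : ∀ {c : ℕ} {χ : GQ → ℕ}, b.Ad (2 * (j + 1)) c χ → 0 < c → ¬ (p : ℕ) ∣ c →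
          pp ^ (2 * (j + 1)) ∣ χ (b.c * e.τ p * b.c) := fun a c0 n => by
        have := (dh a).cj_out r1 b.iq c0 (c_out b) (τ_mem b p)
        rw [ci, (dh a).ker _ (unr_hc r2 b.iq c0 (σo p) n (τ_mem b p) (στ p)), neg_zero] at this
        exact zm this
      show mj _ _ = 1
      rw [map_mul, mj_pow X_Im1 (z t.toAd (zero_lt_one.trans t.one) fun d => (t.gp p
        (Nat.mem_primeFactors.2 ⟨(σo p).1, d, t.sq.ne_zero⟩)).out (σS p)), mj_pow po_Im1
        (z h.toAd xq.pr.pos fun d => h.gp.out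
          ((Nat.prime_dvd_prime_iff_eq (σo p).1 xq.pr).1 d ▸ σS p)), mul_one]
    refine (um_Nt _ _ _).trans ?_
    rw [um_aa, um_aa, one, one_smul]
  simp only [hN]
  have sj : ∀ p : e.σ, ¬ π ∣ (ξ p • A p - (1 + (pp : La) * om : La) ^ (k * y p) •
      ∑ i ∈ Finset.range p, V p ^ i).det → Sj π (Nt (ψ p • A p) (V p) p) := fun p h =>
    sj_minor Sum.inr fun d => h (by
      rw [← hψ, mul_comm (ψ p), mul_smul, ← smul_sub, det_smul]
      exact Dvd.dvd.mul_left d _)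
  by_cases hE : ∃ p : e.σ, π ∣ (ξ p • A p - (1 + (pp : La) * om : La) ^ (k * y p) •
      ∑ i ∈ Finset.range p, V p ^ i).det
  · obtain ⟨p, hE⟩ := hE
    obtain ⟨a, a'⟩ := hy π hπ n2 hX p p.2 hE
    exact .inr ⟨a, p, nz hπ n2 (isUnit_of_mul_isUnit_left (hψ p ▸ ξu p)) (p0 p) (un_cj h1 p) (ns_cj h1 h2 p),
      fun x n => sj x (a' x x.2 fun d => n (Subtype.ext d))⟩
  · exact .inl fun p => sj p fun d => hE ⟨p, d⟩

end Vale.Agent.P014Y.F.Pa
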