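import Vale.Agent.P014Y.F.Pa.P0

/-! # P014Y, block F, row SEP: algebra -/

set_option linter.all false

open Matrix Filter PowerSeries Polynomial
open scoped Classical

noncomputable section

namespace Vale.Agent.P014Y.F.Pa.Se

open Vale.Agent.P014U
open X4F.Pat (U Sy)
open X4F.Pa (ur um dvd_two_pow rs_X)
open B0 (pw_dvd rs_p)

export P004F.Pa.Se (Nt_map un_pow un_sum perp ex_minor)

variable [Pp] {π w : La}

theorem sj_minor {N : Matrix (Fin 2) (Fin 2 ⊕ Fin 2) La} (f : Fin 2 → Fin 2 ⊕ Fin 2)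
    (h : ¬ π ∣ (N.submatrix id f).det) : Sj π N :=
  ⟨(1 : Matrix _ _ La).submatrix (Equiv.refl _) f * (N.submatrix id f).adjugate, _, h, by
    rw [← Matrix.mul_assoc, mul_submatrix_one]
    exact mul_adjugate _⟩

theorem cst (hπ : Prime π) (h2 : ¬ π ∣ (pp : La)) {a : ℤ_[pp]} (h : π ∣ PowerSeries.C a) : a = 0 := by
  by_contra k
  obtain ⟨n, hn⟩ := dvd_two_pow k
  exact h2 (hπ.dvd_of_dvd_pow (n := n) (h.trans (by
    simpa only [map_pow, map_natCast] using map_dvd (PowerSeries.C : ℤ_[pp] →+* La) hn)))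

theorem w_unit (k : ℕ) : IsUnit ((1 + (pp : La) * w : La) ^ k) :=
  (X4F.Pat.rs_unit.2 (by simp [rs_p])).pow k

theorem fin_bad (hπ : Prime π) (h2 : ¬ π ∣ (pp : La)) (hX : ¬ π ∣ w) {k : ℕ} (hk : k ≠ 0)
    (ξ : La) (A B : M2 La) (hB : IsUnit B.det) :
    {y : ℕ | π ∣ (ξ • A - (1 + (pp : La) * w : La) ^ (k * y) • B).det}.Finite := by
  have : (Ideal.span {π}).IsPrime := (Ideal.span_singleton_prime hπ.ne_zero).2 hπ
  let q := Ideal.Quotient.mk (Ideal.span {π})
  have qz : ∀ {x}, q x = 0 ↔ π ∣ x := by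
    intro x; rw [Ideal.Quotient.eq_zero_iff_mem, Ideal.mem_span_singleton]
  let P : (La ⧸ Ideal.span {π})[X] := Polynomial.C (q B.det) * Polynomial.X ^ 2 +
    Polynomial.C (q (-ξ * (A 0 0 * B 1 1 + A 1 1 * B 0 0 - A 0 1 * B 1 0 - A 1 0 * B 0 1))) *
      Polynomial.X + Polynomial.C (q (ξ ^ 2 * A.det))
  have P0 : P ≠ 0 := fun e => hπ.not_dvd_one ((qz.1 (by
    simpa [P, Polynomial.coeff_X, Polynomial.coeff_C, -map_mul, -map_pow, -map_neg, -neg_mul] using
      congrArg (Polynomial.coeff · 2) e)).trans hB.dvd)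
  have inj : Function.Injective fun y : ℕ => q ((1 + (pp : La) * w : La) ^ (k * y)) := by
    intro y y' e
    wlog le : y ≤ y' generalizing y y'
    · exact (this e.symm (le_of_not_ge le)).symm
    obtain ⟨d, rfl⟩ := Nat.exists_eq_add_of_le le
    by_contra ne
    have d0 : k * d ≠ 0 := mul_ne_zero hk fun z => ne (by simp [z])
    have := qz.1 ((map_sub q _ _).trans (sub_eq_zero.2 e.symm))
    rw [mul_add, pow_add, ← mul_sub_one, (w_unit _).dvd_mul_left] at this
    exact (hπ.dvd_or_dvd (this.trans (pw_dvd _ (k * d) (k * d) fun h =>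
      absurd (Nat.le_of_dvd (Nat.pos_of_ne_zero d0) h) (not_le.2 (Nat.lt_pow_self one_lt))))).elim
      (fun h => h2 (hπ.dvd_of_dvd_pow h)) hX
  refine ((P.roots.toFinset.finite_toSet).preimage inj.injOn).subset fun y hy => ?_
  rw [Set.mem_preimage, Finset.mem_coe, Multiset.mem_toFinset, mem_roots P0, IsRoot.def,
    ← qz.2 hy]
  simp only [P, eval_add, eval_mul, eval_C, eval_pow, eval_X, ← map_pow, ← map_mul, ← map_add]
  congr 1
  simp only [det_fin_two, Matrix.sub_apply, Matrix.smul_apply, smul_eq_mul]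
  ring

/-- the choice of the exponents -/
theorem sel (f : ℕ → ℕ → La) (s : Finset ℕ) {β : La} (β0 : β ≠ 0) {o : La} (o1 : Prime o)
    (o2 : ¬ o ∣ (pp : La)) (o3 : ¬ o ∣ w)
    (fin : ∀ x ∈ s, ∀ π, Prime π → ¬ π ∣ (pp : La) → ¬ π ∣ w → {y | π ∣ f x y}.Finite) :
    ∃ y : ℕ → ℕ, β * o * ∏ x ∈ s, f x (y x) ≠ 0 ∧ ∀ π, Prime π → ¬ π ∣ (pp : La) →
      ¬ π ∣ w → ∀ x ∈ s, π ∣ f x (y x) →
        ¬ π ∣ β ∧ ∀ x' ∈ s, x' ≠ x → ¬ π ∣ f x' (y x') := by
  have x0 := o1.ne_zero
  induction s using Finset.induction_on with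
  | empty => exact ⟨0, by simp [β0, x0], by simp⟩
  | insert a s ha ih =>
    obtain ⟨y, h0, h1⟩ := ih fun x hx => fin x (Finset.mem_insert_of_mem hx)
    set γ := β * o * ∏ x ∈ s, f x (y x)
    obtain ⟨z, hz⟩ : ∃ z, ∀ π, Prime π → ¬ π ∣ (pp : La) → ¬ π ∣ w → π ∣ γ → ¬ π ∣ f a z := by
      obtain ⟨z, hz⟩ := (((UniqueFactorizationMonoid.factors γ).toFinset.finite_toSet.subset
        (t := {π | π ∈ UniqueFactorizationMonoid.factors γ ∧ ¬ π ∣ (pp : La) ∧ ¬ π ∣ w})
        fun π h => Multiset.mem_toFinset.2 h.1).biUnion fun π h => fin a (Finset.mem_insert_self _ _) π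
          (UniqueFactorizationMonoid.prime_of_factor π h.1) h.2.1 h.2.2).exists_notMem
      refine ⟨z, fun π p a1 a2 a3 a4 => hz ?_⟩
      obtain ⟨π', m, k⟩ := UniqueFactorizationMonoid.exists_mem_factors_of_dvd h0 p.irreducible a3
      exact Set.mem_biUnion (x := π') ⟨m, fun d => a1 (k.dvd.trans d), fun d => a2 (k.dvd.trans d)⟩
        (k.symm.dvd.trans a4)
    have up : ∀ x ∈ s, Function.update y a z x = y x := fun x hx =>
      Function.update_of_ne (fun e : x = a => ha (e ▸ hx)) _ _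
    have dv : ∀ x ∈ s, f x (y x) ∣ γ := fun x hx => (Finset.dvd_prod_of_mem _ hx).mul_left _
    refine ⟨Function.update y a z, ?_, fun π p a1 a2 x hx a3 => ?_⟩
    · rw [Finset.prod_insert ha, Function.update_self, Finset.prod_congr rfl fun x hx => by rw [up x hx],
        mul_left_comm]
      refine mul_ne_zero (fun e => ?_) h0
      exact hz o o1 o2 o3 ((dvd_mul_left _ _).mul_right _) (e ▸ dvd_zero _)
    · rcases Finset.mem_insert.1 hx with rfl | hx1
      · rw [Function.update_self] at a3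
        refine ⟨fun d => hz π p a1 a2 ((d.mul_right _).mul_right _) a3, fun x' hx' n d => ?_⟩
        have m := (Finset.mem_insert.1 hx').resolve_left n
        rw [up x' m] at d
        exact hz π p a1 a2 (d.trans (dv x' m)) a3
      · rw [up x hx1] at a3
        refine ⟨(h1 π p a1 a2 x hx1 a3).1, fun x' hx' n d => ?_⟩
        rcases Finset.mem_insert.1 hx' with rfl | m
        · rw [Function.update_self] at d
          exact hz π p a1 a2 (a3.trans (dv x hx1)) d
        · rw [up x' m] at d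
          exact (h1 π p a1 a2 x hx1 a3).2 x' m n d


theorem um_Nt (A V : ∀ j, M2 (Rj (j + 1))) (p : ℕ) :
    um (fun j => Nt (A j) (V j) p) = Nt (um A) (um V) p := by
  have e : ∀ j, Nt (A j) (V j) p = (Nt (.of fun a b j => A j a b) (.of fun a b j => V j a b) p).map
    (Pi.evalRingHom (fun j => Rj (j + 1)) j) := fun j =>
      (Nt_map (Pi.evalRingHom (fun j => Rj (j + 1)) j) (.of fun a b j => A j a b)
        (.of fun a b j => V j a b) p).symm
  simp only [e]
  exact Nt_map ur _ _ p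

/-- the tame relation is not zero modulo `π` -/
theorem nz (hπ : Prime π) (h2 : ¬ π ∣ (pp : La)) {A V : M2 ℤ_[pp]} {ψ : La} (hψ : IsUnit ψ) {p : ℕ}
    (hp : (p : ℤ_[pp]) ≠ 0) (h : (V - 1) ^ 2 = 0) (ns : V = 1 → ∀ s : ℤ_[pp], A ≠ s • 1) :
    ∃ i i', ¬ π ∣ Nt (ψ • A.map PowerSeries.C) (V.map PowerSeries.C) p i i' := by
  by_contra hc
  push Not at hc
  have v1 : V = 1 := by
    refine sub_eq_zero.1 (Matrix.ext fun i j => ?_)
    have := hc i (.inl j)
    rw [Nt, fromCols_apply_inl, show (1 - V.map PowerSeries.C ^ p : M2 La) = (1 - V ^ p).map PowerSeries.C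
      from ((map_sub (PowerSeries.C : ℤ_[pp] →+* La).mapMatrix 1 _).trans
        (by rw [map_one, map_pow]; rfl)).symm, un_pow h, sub_add_cancel_left, map_apply] at this
    have := cst hπ h2 this
    rw [Matrix.neg_apply, neg_eq_zero, Matrix.smul_apply, nsmul_eq_mul] at this
    exact (mul_eq_zero.1 this).resolve_left hp
  have k : ∀ i j, π ∣ ψ * PowerSeries.C (A i j) - (p • 1 : M2 La) i j := fun i j => by
    have := hc i (.inr j)
    rw [Nt, fromCols_apply_inr, v1, Matrix.map_one _ (map_zero _) (map_one _)] at this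
    simpa only [one_pow, Finset.sum_const, Finset.card_range, Matrix.sub_apply, Matrix.smul_apply,
      map_apply, smul_eq_mul] using this
  have k1 := k 0 1
  have k2 := k 1 0
  have k3 := dvd_sub (k 0 0) (k 1 1)
  simp only [Matrix.smul_apply, one_apply_eq, sub_sub_sub_cancel_right, ← mul_sub, ← map_sub,
    one_apply_ne (show (0 : Fin 2) ≠ 1 by decide), one_apply_ne (show (1 : Fin 2) ≠ 0 by decide),
    smul_zero, sub_zero, hψ.dvd_mul_left] at k1 k2 k3
  refine ns v1 (A 0 0) (Matrix.ext fun i j => ?_)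
  fin_cases i <;> fin_cases j <;> simp [cst hπ h2 k1, cst hπ h2 k2, sub_eq_zero.1 (cst hπ h2 k3)]

end Vale.Agent.P014Y.F.Pa.Se
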