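import Vale.Agent.P014Y.F.Pa.Ps

/-! # P014Y (FRAME), row SQX: the characters of the perturbed tower -/

set_option linter.all false

open NumberField Matrix Filter PowerSeries Submodule Set
open scoped Classical Pointwise

noncomputable section

namespace Vale.Agent.P014Y.F.Pa

open Vale.Agent.P022 Vale.Agent.P004K Vale.Agent.P014U
open Vale.Agent.P027M.S (Inert)
open Vale.Agent.P022D.W (dec)
open Vale.Agent.P022E.GW (Ov Fb)
open X4F.Pat (U Sy Im two_Im X_Im)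

namespace Sx

variable [Pp]

theorem pw {x : La} (h : x - 1 ∈ Im 1) (j : ℕ) : mj j x ^ pp ^ (2 * j) = 1 := by
  rw [← map_pow, ← map_one (mj j), Ideal.Quotient.eq]
  exact Im_pow j (Ideal.pow_le_pow_right (Nat.le_succ _) (X4F.Pa.pw_mem two_Im1 h _))

theorem pw_mod {x : La} (h : x - 1 ∈ Im 1) {j a a' : ℕ} (k : a ≡ a' [MOD pp ^ (2 * j)]) :
    mj j x ^ a = mj j x ^ a' := by
  rw [pow_eq_pow_mod a (pw h j), pow_eq_pow_mod a' (pw h j), k]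

theorem X1 : (1 + X : La) - 1 ∈ Im 1 := by simpa using X_Im 1

variable [Om]

theorem X2 : (1 + (pp : La) * om : La) - 1 ∈ Im 1 := by simpa using po_Im1

theorem ps_eq (j : ℕ) (χ χ' : GQ → ℕ) (g : GQ) :
    ps j χ χ' g = mj j (1 + X) ^ χ g * mj j (1 + (pp : La) * om) ^ χ' g := by
  rw [ps, map_mul, map_pow, map_pow]

theorem ps_ord (j : ℕ) (χ χ' : GQ → ℕ) (g : GQ) : ps j χ χ' g ^ pp ^ (2 * j) = 1 := by
  rw [ps_eq, mul_pow, pow_right_comm, pow_right_comm _ (χ' g), pw X1, pw X2, one_pow, one_pow, one_mul]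

theorem ps_zero {j : ℕ} {χ χ' : GQ → ℕ} {g : GQ} (h : pp ^ (2 * j) ∣ χ' g) :
    ps j χ χ' g = ps j χ 0 g := by
  rw [ps_eq, ps_eq, pw_mod X2 ((Nat.modEq_zero_iff_dvd).2 h)]; rfl

theorem ps_X (j : ℕ) (χ : GQ → ℕ) (g : GQ) : ps j χ 0 g - 1 ∈ Ideal.span {mj j X} :=
  Ideal.mem_span_singleton.2 (X_ps0 χ (dvd_zero _))

theorem ps_two (j : ℕ) (χ χ' : GQ → ℕ) (g : GQ) :
    ps j χ χ' g - mj j (1 + X) ^ χ g ∈ Ideal.span {(pp : Rj j)} := by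
  rw [Ideal.mem_span_singleton, ps_eq, ← mul_sub_one]
  refine Dvd.dvd.mul_left (Dvd.dvd.trans ⟨mj j om, ?_⟩ (sub_one_dvd_pow_sub_one _ _)) _
  rw [map_add, map_mul, map_one, map_natCast]; ring

variable {e : Crv} {b : Fld e} {m m' k n j c q : ℕ} {χ χ' : GQ → ℕ} {y : ℕ → ℕ}

omit [Om] in
theorem gp_mono (h : m ≤ m') (g : b.Gp m n q) : b.Gp m' n q :=
  ⟨g.out, g.cop, g.typ, fun d => g.gq ((pow_dvd_pow _ h).trans d)⟩

omit [Om] in
theorem tw_mono (h : m ≤ m') (t : b.Tw m n c χ) : b.Tw m' n c χ :=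
  ⟨t.toAd, t.sq, t.one, t.crd.trans h, fun q hq => gp_mono h (t.gp q hq), fun q hq P o =>
    (t.ram q hq P o).imp fun _ a => ⟨a.1, fun d => a.2.1 ((pow_dvd_pow _ h).trans d), a.2.2⟩⟩

omit [Om] in
theorem pe_mono (h : m ≤ m') (t : b.Pe m k y n c χ q χ') : b.Pe m' k y n c χ q χ' :=
  ⟨t.toAd, t.xq.imp fun _ a => ⟨a.1.trans_le h, a.2⟩, gp_mono h t.gp, fun P o =>
    (t.ram P o).imp fun _ a => ⟨a.1, fun d => a.2 ((pow_dvd_pow _ h).trans d)⟩, t.odd, t.two, t.tw⟩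

theorem chr_of {C : ℕ} (h : b.Ad (2 * j) c χ) (h' : b.Ad (2 * j) q χ') (sq : Squarefree C)
    (cop : ∀ l ∈ C.primeFactors, l ∉ e.S ∧ ¬ l ∣ b.δ') (le : Hc b.j C ≤ Hc b.j c)
    (le' : Hc b.j C ≤ Hc b.j q) : b.Chr j C (ps j χ χ') where
  sq := sq
  cop := cop
  mul g hg g' hg' := by
    rw [ps_eq, ps_eq, ps_eq, pw_mod X1 (h.add g hg g' hg'), pw_mod X2 (h'.add g hg g' hg'), pow_add,
      pow_add, mul_mul_mul_comm]
  ker g hg := by
    rw [ps_eq, pw_mod X1 (Nat.modEq_zero_iff_dvd.2 (h.ker g (le hg))),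
      pw_mod X2 (Nat.modEq_zero_iff_dvd.2 (h'.ker g (le' hg))), pow_zero, pow_zero, one_mul]
  ord g _ := ps_ord _ _ _ _

/-- the unperturbed character -/
theorem chr0 (t : b.Tw m (2 * j) c χ) : b.Chr j c (ps j χ 0) :=
  chr_of t.toAd ⟨fun _ _ _ _ => rfl, fun _ _ => dvd_zero _⟩ t.sq
    (fun l hl => ⟨(t.gp l hl).out, (t.gp l hl).cop⟩) le_rfl le_rfl

/-- the perturbed character -/
theorem chr1 (r1 : RC1) (t : b.Tw m (2 * j) c χ) (p : b.Pe m' k y (2 * j) c χ q χ') :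
    b.Chr j (c * q) (ps j χ χ') := by
  obtain ⟨v, -, x⟩ := p.xq
  have c0 := t.sq.ne_zero
  have cop : c.Coprime q := ((Nat.Prime.coprime_iff_not_dvd x.pr).2 fun d => x.out
    (Finset.mem_union_right _ (Nat.mem_primeFactors.2 ⟨x.pr, d, c0⟩))).symm
  refine chr_of t.toAd p.toAd ((Nat.squarefree_mul cop).2 ⟨t.sq, x.pr.squarefree⟩) (fun l hl => ?_)
    ((r1 _ _ b.iq c c0.bot_lt).2.2.2.2.2 q x.pr.pos)
    (mul_comm q c ▸ (r1 _ _ b.iq q x.pr.pos).2.2.2.2.2 c c0.bot_lt)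
  rw [cop.primeFactors_mul, x.pr.primeFactors, Finset.mem_union, Finset.mem_singleton] at hl
  rcases hl with hl | rfl
  exacts [⟨(t.gp l hl).out, (t.gp l hl).cop⟩, ⟨p.gp.out, p.gp.cop⟩]

/-- the kernel of an additive character -/
def adk (h : b.Ad n c χ) : Subgroup GQ where
  carrier := {g | g ∈ b.Γ ∧ pp ^ n ∣ χ g}
  one_mem' := ⟨one_mem _, h.ker 1 (one_mem _)⟩
  mul_mem' {g g'} a a' := ⟨mul_mem a.1 a'.1,
    ((h.add g a.1 g' a'.1).dvd_iff dvd_rfl).2 (dvd_add a.2 a'.2)⟩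
  inv_mem' {g} a := ⟨inv_mem a.1, (Nat.dvd_add_right a.2).1
    (((h.add g a.1 _ (inv_mem a.1)).dvd_iff dvd_rfl).1 (by
      rw [mul_inv_cancel]; exact h.ker 1 (one_mem _)))⟩

omit [Om] in
/-- an unramified character which is trivial at the Frobenius element -/
theorem ad_dec (r1 : RC1) (r2 : RC2) (h : b.Ad n c χ) (c0 : 0 < c) {p : ℕ} (hp : p ∈ e.S)
    (pc : ¬ p ∣ c) (h0 : pp ^ n ∣ χ (b.φ p)) {g : GQ} (hg : g ∈ dec (e.P p)) : pp ^ n ∣ χ g :=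
  (P004S.lt.dec_le (e.ov p hp) (b.ch.frb p hp) (U := adk h)
    (Subgroup.isOpen_mono (H₁ := Hc b.j c) (fun g a => ⟨a.1, h.ker g a⟩) (r1 _ _ b.iq c c0).2.1)
    ⟨b.ch.mem p hp, h0⟩ (fun i hi => have a := b.le p hp (P004S.inert_dec hi)
      ⟨a, h.ker i (B0.unr_hc r2 b.iq c0 (e.ov p hp) pc a hi)⟩) hg).2

/-- the perturbation is not seen at the place above `p` -/
theorem ps_dec (r1 : RC1) (r2 : RC2) (p : b.Pe m k y (2 * j) c χ q χ') {g : GQ}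
    (hg : g ∈ dec (e.P pp)) : ps j χ χ' g = ps j χ 0 g := by
  obtain ⟨v, -, x⟩ := p.xq
  exact ps_zero (ad_dec r1 r2 p.toAd x.pr.pos e.pm (fun d => p.gp.out
    ((Nat.prime_dvd_prime_iff_eq pp_prime x.pr).1 d ▸ e.pm)) p.two hg)

end Sx

end Vale.Agent.P014Y.F.Pa
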